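import Vale.Agent.Lib.P113.Eff.Base

/-!
# P113 effectivity, module E6: mixed derivatives of the force of a sum of separable fields.
Statement FROZEN.
-/

namespace Vale.Agent.Lib.P113

open scoped ContDiff

section aux

theorem sep_contDiff {T : ℝ → ℝ} {A : Fin 3 → ℝ → ℝ} (hT : ContDiff ℝ ∞ T)
    (hA : ∀ c, ContDiff ℝ ∞ (A c)) : ContDiff ℝ ∞ (sep T A) := by
  unfold sep
  have hc : ∀ c : Fin 3, ContDiff ℝ ∞ (fun p : ℝ × V3 => A c (p.2 c)) := fun c =>
    (hA c).comp ((contDiff_apply ℝ ℝ c).comp contDiff_snd)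
  exact (hT.comp contDiff_fst).mul (((hc 0).mul (hc 1)).mul (hc 2))

theorem dT_contDiff {F : ℝ × V3 → ℝ} (hF : ContDiff ℝ ∞ F) : ContDiff ℝ ∞ (dT F) :=
  contDiff_fderiv_apply hF _

theorem dX_contDiff (e : Fin 3) {F : ℝ × V3 → ℝ} (hF : ContDiff ℝ ∞ F) :
    ContDiff ℝ ∞ (dX e F) :=
  contDiff_fderiv_apply hF _

theorem dT_sep {T : ℝ → ℝ} {A : Fin 3 → ℝ → ℝ} (hT : ContDiff ℝ ∞ T)
    (hA : ∀ c, ContDiff ℝ ∞ (A c)) : dT (sep T A) = sep (deriv T) A := by
  funext p
  obtain ⟨t, x⟩ := p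
  have h := hasDerivAt_time (sep_contDiff hT hA) t x
  have h2 : HasDerivAt (fun s => sep T A (s, x)) (sep (deriv T) A (t, x)) t := by
    unfold sep
    exact ((hT.differentiable (by simp)) t).hasDerivAt.mul_const (A 0 (x 0) * A 1 (x 1) * A 2 (x 2))
  exact h.unique h2

theorem dX_sep (e : Fin 3) {T : ℝ → ℝ} {A : Fin 3 → ℝ → ℝ} (hT : ContDiff ℝ ∞ T)
    (hA : ∀ c, ContDiff ℝ ∞ (A c)) :
    dX e (sep T A) = sep T (Function.update A e (deriv (A e))) := by
  funext p
  obtain ⟨t, x⟩ := p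
  have h := hasDerivAt_space (sep_contDiff hT hA) t x e
  have hc : ∀ c : Fin 3, HasDerivAt (fun s : ℝ => A c ((x + s • ee e) c))
      (if c = e then deriv (A c) (x c) else 0) 0 := by
    intro c
    by_cases hce : c = e
    · subst hce
      rw [if_pos rfl]
      have h1 : HasDerivAt (fun s : ℝ => x c + s) 1 0 := by
        simpa using (hasDerivAt_id (0 : ℝ)).const_add (x c)
      have h2 : HasDerivAt (A c) (deriv (A c) (x c)) (x c + 0) := by
        rw [add_zero]
        exact ((hA c).differentiable (by simp) (x c)).hasDerivAt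
      have h3 := h2.comp (0 : ℝ) h1
      have e1 : (fun s : ℝ => A c ((x + s • ee c) c)) = (A c) ∘ (fun s : ℝ => x c + s) := by
        funext s
        simp [ee]
      rw [e1]
      simpa using h3
    · rw [if_neg hce]
      have e1 : (fun s : ℝ => A c ((x + s • ee e) c)) = fun _ => A c (x c) := by
        funext s
        simp [ee, hce]
      rw [e1]
      exact hasDerivAt_const _ _
  have h2 := (((hc 0).mul (hc 1)).mul (hc 2)).const_mul (T t)
  have h3 := h.unique h2
  unfold dX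
  rw [h3]
  fin_cases e <;> simp [sep, Function.update]

theorem lsum_contDiff {ι : Type*} (L : List ι) (cf : ι → ℝ) (F : ι → ℝ × V3 → ℝ)
    (hF : ∀ l ∈ L, ContDiff ℝ ∞ (F l)) :
    ContDiff ℝ ∞ (fun p => (L.map fun l => cf l * F l p).sum) := by
  induction L with
  | nil => simpa using contDiff_const
  | cons l L ih =>
    simp only [List.map_cons, List.sum_cons]
    exact (contDiff_const.mul (hF l (by simp))).add (ih fun l' hl' => hF l' (by simp [hl']))

theorem fderiv_lsum {ι : Type*} (L : List ι) (cf : ι → ℝ) (F : ι → ℝ × V3 → ℝ)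
    (hF : ∀ l ∈ L, ContDiff ℝ ∞ (F l)) (p v : ℝ × V3) :
    fderiv ℝ (fun p => (L.map fun l => cf l * F l p).sum) p v
      = (L.map fun l => cf l * fderiv ℝ (F l) p v).sum := by
  induction L with
  | nil => simp
  | cons l L ih =>
    simp only [List.map_cons, List.sum_cons]
    have h1 : DifferentiableAt ℝ (fun p => cf l * F l p) p :=
      ((contDiff_const.mul (hF l (by simp))).differentiable (by simp)) p
    have h2 : DifferentiableAt ℝ (fun p => (L.map fun l => cf l * F l p).sum) p :=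
      ((lsum_contDiff L cf F fun l' hl' => hF l' (by simp [hl'])).differentiable (by simp)) p
    rw [fderiv_fun_add h1 h2]
    rw [add_apply, ih fun l' hl' => hF l' (by simp [hl'])]
    rw [fderiv_const_mul (((hF l (by simp)).differentiable (by simp)) p)]
    simp

theorem dT_lsum {ι : Type*} (L : List ι) (cf : ι → ℝ) (F : ι → ℝ × V3 → ℝ)
    (hF : ∀ l ∈ L, ContDiff ℝ ∞ (F l)) :
    dT (fun p => (L.map fun l => cf l * F l p).sum)
      = fun p => (L.map fun l => cf l * dT (F l) p).sum := by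
  funext p
  exact fderiv_lsum L cf F hF p _

theorem dX_lsum (e : Fin 3) {ι : Type*} (L : List ι) (cf : ι → ℝ) (F : ι → ℝ × V3 → ℝ)
    (hF : ∀ l ∈ L, ContDiff ℝ ∞ (F l)) :
    dX e (fun p => (L.map fun l => cf l * F l p).sum)
      = fun p => (L.map fun l => cf l * dX e (F l) p).sum := by
  funext p
  exact fderiv_lsum L cf F hF p _

theorem iter_contDiff {D : (ℝ × V3 → ℝ) → (ℝ × V3 → ℝ)}
    (hD : ∀ F, ContDiff ℝ ∞ F → ContDiff ℝ ∞ (D F)) (n : ℕ) {F : ℝ × V3 → ℝ}
    (hF : ContDiff ℝ ∞ F) : ContDiff ℝ ∞ (D^[n] F) := by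
  induction n generalizing F with
  | zero => exact hF
  | succ n ih => rw [Function.iterate_succ_apply]; exact ih (hD F hF)

theorem iter_lsum {ι : Type*} {D : (ℝ × V3 → ℝ) → (ℝ × V3 → ℝ)}
    (hD : ∀ F, ContDiff ℝ ∞ F → ContDiff ℝ ∞ (D F))
    (hL : ∀ (L : List ι) (cf : ι → ℝ) (F : ι → ℝ × V3 → ℝ),
      (∀ l ∈ L, ContDiff ℝ ∞ (F l)) → D (fun p => (L.map fun l => cf l * F l p).sum)
      = fun p => (L.map fun l => cf l * D (F l) p).sum)
    (n : ℕ) (L : List ι) (cf : ι → ℝ) (F : ι → ℝ × V3 → ℝ)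
    (hF : ∀ l ∈ L, ContDiff ℝ ∞ (F l)) :
    D^[n] (fun p => (L.map fun l => cf l * F l p).sum)
      = fun p => (L.map fun l => cf l * D^[n] (F l) p).sum := by
  induction n generalizing F with
  | zero => rfl
  | succ n ih =>
    simp only [Function.iterate_succ_apply]
    rw [hL L cf F hF]
    exact ih (fun l => D (F l)) fun l hl => hD _ (hF l hl)

theorem mixed_contDiff (a : ℕ) (b : Fin 3 → ℕ) {F : ℝ × V3 → ℝ} (hF : ContDiff ℝ ∞ F) :
    ContDiff ℝ ∞ (mixed a b F) := by
  unfold mixed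
  exact iter_contDiff (fun _ => dT_contDiff) _ (iter_contDiff (fun _ => dX_contDiff 0) _
    (iter_contDiff (fun _ => dX_contDiff 1) _ (iter_contDiff (fun _ => dX_contDiff 2) _ hF)))

theorem mixed_lsum (a : ℕ) (b : Fin 3 → ℕ) {ι : Type*} (L : List ι) (cf : ι → ℝ)
    (F : ι → ℝ × V3 → ℝ) (hF : ∀ l ∈ L, ContDiff ℝ ∞ (F l)) :
    mixed a b (fun p => (L.map fun l => cf l * F l p).sum)
      = fun p => (L.map fun l => cf l * mixed a b (F l) p).sum := by
  unfold mixed
  rw [iter_lsum (fun _ => dX_contDiff 2) (dX_lsum 2) _ L cf F hF]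
  rw [iter_lsum (fun _ => dX_contDiff 1) (dX_lsum 1) _ L cf _
    fun l hl => iter_contDiff (fun _ => dX_contDiff 2) _ (hF l hl)]
  rw [iter_lsum (fun _ => dX_contDiff 0) (dX_lsum 0) _ L cf _
    fun l hl => iter_contDiff (fun _ => dX_contDiff 1) _
      (iter_contDiff (fun _ => dX_contDiff 2) _ (hF l hl))]
  rw [iter_lsum (fun _ => dT_contDiff) dT_lsum _ L cf _
    fun l hl => iter_contDiff (fun _ => dX_contDiff 0) _ (iter_contDiff (fun _ => dX_contDiff 1) _
      (iter_contDiff (fun _ => dX_contDiff 2) _ (hF l hl)))]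

theorem update_contDiff {A : Fin 3 → ℝ → ℝ} (hA : ∀ c, ContDiff ℝ ∞ (A c)) (e : Fin 3)
    {g : ℝ → ℝ} (hg : ContDiff ℝ ∞ g) : ∀ c, ContDiff ℝ ∞ (Function.update A e g c) := by
  intro c
  by_cases h : c = e
  · subst h; simpa using hg
  · simpa [Function.update_of_ne h] using hA c

theorem dT_iter_sep (n : ℕ) {T : ℝ → ℝ} {A : Fin 3 → ℝ → ℝ} (hT : ContDiff ℝ ∞ T)
    (hA : ∀ c, ContDiff ℝ ∞ (A c)) : dT^[n] (sep T A) = sep (deriv^[n] T) A := by
  induction n generalizing T with
  | zero => rfl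
  | succ n ih =>
    simp only [Function.iterate_succ_apply]
    rw [dT_sep hT hA]
    exact ih (ContDiff.iterate_deriv 1 hT)

theorem dX_iter_sep (e : Fin 3) (n : ℕ) {T : ℝ → ℝ} {A : Fin 3 → ℝ → ℝ} (hT : ContDiff ℝ ∞ T)
    (hA : ∀ c, ContDiff ℝ ∞ (A c)) :
    (dX e)^[n] (sep T A) = sep T (Function.update A e (deriv^[n] (A e))) := by
  induction n generalizing A with
  | zero => simp
  | succ n ih =>
    simp only [Function.iterate_succ_apply]
    rw [dX_sep e hT hA]
    have hd : ContDiff ℝ ∞ (deriv (A e)) := ContDiff.iterate_deriv 1 (hA e)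
    rw [ih (update_contDiff hA e hd)]
    simp

theorem mixed_sep (a : ℕ) (b : Fin 3 → ℕ) {T : ℝ → ℝ} {A : Fin 3 → ℝ → ℝ}
    (hT : ContDiff ℝ ∞ T) (hA : ∀ c, ContDiff ℝ ∞ (A c)) :
    mixed a b (sep T A) = sep (deriv^[a] T) (fun c => deriv^[b c] (A c)) := by
  unfold mixed
  have h2 := update_contDiff hA 2 (ContDiff.iterate_deriv (b 2) (hA 2))
  rw [dX_iter_sep 2 _ hT hA]
  have h1 := update_contDiff h2 1 (ContDiff.iterate_deriv (b 1) (h2 1))
  rw [dX_iter_sep 1 _ hT h2]
  have h0 := update_contDiff h1 0 (ContDiff.iterate_deriv (b 0) (h1 0))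
  rw [dX_iter_sep 0 _ hT h1]
  rw [dT_iter_sep _ hT h0]
  congr 1
  funext c
  fin_cases c <;> simp [Function.update]

theorem fderiv_comp_apply {W : ℝ × V3 → V3} (hW : ContDiff ℝ ∞ W) (i : Fin 3) (p v : ℝ × V3) :
    fderiv ℝ (fun q => W q i) p v = fderiv ℝ W p v i := by
  have h := (hasFDerivAt_pi'.1 ((hW.differentiable (by simp)) p).hasFDerivAt) i
  rw [h.fderiv]
  rfl

theorem force_comp (ν : ℝ) (u : ℝ → V3 → V3) (i : Fin 3)
    (hsm : ContDiff ℝ ∞ (fun p : ℝ × V3 => u p.1 p.2)) :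
    (fun p : ℝ × V3 => forceOf ν u p.1 p.2 i)
      = fun p => dT (fun q => u q.1 q.2 i) p - ν * ∑ e : Fin 3,
          dX e (dX e (fun q => u q.1 q.2 i)) p := by
  funext p
  obtain ⟨t, x⟩ := p
  have h1 : ∀ v, (fun q : ℝ × V3 => fderiv ℝ (fun q => u q.1 q.2 i) q v)
      = fun q => fderiv ℝ (fun p : ℝ × V3 => u p.1 p.2) q v i := by
    intro v
    funext q
    exact fderiv_comp_apply hsm i q v
  unfold forceOf dT dX
  simp only [h1]
  simp only [Pi.sub_apply, Pi.smul_apply, Finset.sum_apply, smul_eq_mul]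
  rw [fderiv_comp_apply hsm i]
  congr 2
  refine Finset.sum_congr rfl fun e _ => ?_
  exact (fderiv_comp_apply (contDiff_fderiv_apply hsm _) i _ _).symm

theorem lsum_congr {ι : Type*} (L : List ι) (f g : ι → ℝ) (h : ∀ l ∈ L, f l = g l) :
    (L.map f).sum = (L.map g).sum := by
  rw [List.map_congr_left h]

theorem lsum_three {ι : Type*} (L : List ι) (cf f0 f1 f2 : ι → ℝ) :
    (L.map fun l => cf l * (f0 l + f1 l + f2 l)).sum
      = (L.map fun l => cf l * f0 l).sum + (L.map fun l => cf l * f1 l).sum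
        + (L.map fun l => cf l * f2 l).sum := by
  induction L with
  | nil => simp
  | cons l L ih =>
    simp only [List.map_cons, List.sum_cons, ih]
    ring

end aux

theorem mixed_force_of_sep {ι : Type*} (L : List ι) (cf : ι → ℝ) (T : ι → ℝ → ℝ)
    (A : ι → Fin 3 → ℝ → ℝ) (hT : ∀ l ∈ L, ContDiff ℝ ∞ (T l))
    (hA : ∀ l ∈ L, ∀ c, ContDiff ℝ ∞ (A l c)) (ν : ℝ) (u : ℝ → V3 → V3) (i : Fin 3)
    (hsm : ContDiff ℝ ∞ (fun p : ℝ × V3 => u p.1 p.2))
    (hu : ∀ t x, u t x i = (L.map fun l => cf l * sep (T l) (A l) (t, x)).sum)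
    (a : ℕ) (b : Fin 3 → ℕ) (t : ℝ) (x : V3) :
    mixed a b (fun p => forceOf ν u p.1 p.2 i) (t, x) =
      (L.map fun l => cf l * sep (deriv^[a + 1] (T l)) (fun c => deriv^[b c] (A l c)) (t, x)).sum
      - ν * (L.map fun l => cf l * ∑ e : Fin 3,
          sep (deriv^[a] (T l)) (fun c => deriv^[b c + if c = e then 2 else 0] (A l c)) (t, x)).sum := by
  have hU : (fun q : ℝ × V3 => u q.1 q.2 i)
      = fun q => (L.map fun l => cf l * sep (T l) (A l) q).sum := by
    funext q
    exact hu q.1 q.2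
  have hS : ∀ l ∈ L, ContDiff ℝ ∞ (sep (T l) (A l)) := fun l hl => sep_contDiff (hT l hl) (hA l hl)
  -- the four pieces
  set H : Option (Fin 3) → ℝ × V3 → ℝ := fun o => match o with
    | none => fun p => (L.map fun l => cf l * dT (sep (T l) (A l)) p).sum
    | some e => fun p => (L.map fun l => cf l * dX e (dX e (sep (T l) (A l))) p).sum with hH
  set c : Option (Fin 3) → ℝ := fun o => match o with
    | none => 1
    | some _ => -ν with hc
  have hF : (fun p : ℝ × V3 => forceOf ν u p.1 p.2 i)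
      = fun p => (([none, some 0, some 1, some 2] : List (Option (Fin 3))).map
          fun o => c o * H o p).sum := by
    rw [force_comp ν u i hsm, hU, dT_lsum L cf _ hS]
    funext p
    have h2 : ∀ e : Fin 3, dX e (dX e fun q => (L.map fun l => cf l * sep (T l) (A l) q).sum)
        = fun p => (L.map fun l => cf l * dX e (dX e (sep (T l) (A l))) p).sum := by
      intro e
      rw [dX_lsum e L cf _ hS, dX_lsum e L cf _ fun l hl => dX_contDiff e (hS l hl)]
    simp only [h2, Fin.sum_univ_three, hH, hc, List.map_cons, List.map_nil, List.sum_cons,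
      List.sum_nil]
    ring
  have hHs : ∀ o ∈ ([none, some 0, some 1, some 2] : List (Option (Fin 3))),
      ContDiff ℝ ∞ (H o) := by
    intro o _
    cases o with
    | none => exact lsum_contDiff L cf _ fun l hl => dT_contDiff (hS l hl)
    | some e => exact lsum_contDiff L cf _ fun l hl => dX_contDiff e (dX_contDiff e (hS l hl))
  rw [hF, mixed_lsum a b _ c H hHs]
  have hm0 : mixed a b (H none) (t, x)
      = (L.map fun l => cf l * sep (deriv^[a + 1] (T l)) (fun c => deriv^[b c] (A l c)) (t, x)).sum := by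
    simp only [hH]
    rw [mixed_lsum a b L cf _ fun l hl => dT_contDiff (hS l hl)]
    apply lsum_congr
    intro l hl
    rw [dT_sep (hT l hl) (hA l hl)]
    have hd : ContDiff ℝ ∞ (deriv (T l)) := ContDiff.iterate_deriv 1 (hT l hl)
    rw [mixed_sep a b hd (hA l hl)]
    rfl
  have hm1 : ∀ e : Fin 3, mixed a b (H (some e)) (t, x)
      = (L.map fun l => cf l * sep (deriv^[a] (T l))
          (fun c => deriv^[b c + if c = e then 2 else 0] (A l c)) (t, x)).sum := by
    intro e
    simp only [hH]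
    rw [mixed_lsum a b L cf _ fun l hl => dX_contDiff e (dX_contDiff e (hS l hl))]
    apply lsum_congr
    intro l hl
    have hd : ContDiff ℝ ∞ (deriv (A l e)) := ContDiff.iterate_deriv 1 (hA l hl e)
    have hd2 : ContDiff ℝ ∞ (deriv (deriv (A l e))) := ContDiff.iterate_deriv 1 hd
    rw [dX_sep e (hT l hl) (hA l hl), dX_sep e (hT l hl) (update_contDiff (hA l hl) e hd)]
    simp only [Function.update_self, Function.update_idem]
    rw [mixed_sep a b (hT l hl) (update_contDiff (hA l hl) e hd2)]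
    congr 3
    funext c'
    by_cases hce : c' = e
    · subst hce
      simp [Function.iterate_add_apply]
    · simp [hce]
  simp only [List.map_cons, List.map_nil, List.sum_cons, List.sum_nil, hm0, hm1,
    Fin.sum_univ_three, lsum_three, hc]
  ring

end Vale.Agent.Lib.P113
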