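import Vale.Agent.Lib.P113.Eff.PRc

/-!
# P113 effectivity, module E12: from approximation schemes to a compiler.
-/

namespace Vale.Agent.Lib.P113

open Encodable

/-- a computable map into `QD` of two arguments is compiled by a computable map of the first -/
theorem exists_curry_code {α β σ : Type*} [Primcodable α] [Primcodable β] [Primcodable σ]
    {G : α × β → σ} (hG : Computable G) :
    ∃ comp : α → Nat.Partrec.Code, Computable comp ∧ ∀ a b,
      (comp a).eval (encode b) = Part.some (encode (G (a, b))) := by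
  obtain ⟨c, hc⟩ := Nat.Partrec.Code.exists_code.1 hG
  refine ⟨fun a => Nat.Partrec.Code.curry c (encode a), ?_, fun a b => ?_⟩
  · exact (Nat.Partrec.Code.primrec₂_curry.comp (Primrec.const c) Primrec.encode).to_comp
  · rw [Nat.Partrec.Code.eval_curry, hc]
    have : Nat.pair (encode a) (encode b) = encode (a, b) := rfl
    rw [this]
    show (Part.ofOption (decode (encode (a, b)))).bind
      (fun p => Part.map encode ((G : α × β →. σ) p)) = _
    rw [encodek]
    simp

theorem exists_compiler {α β : Type*} [Primcodable α] [Primcodable β] {X Y : α × β → ℝ}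
    (hX : PR X) (hY : PR Y) {ν : ℝ} (hν : CompReal ν) (acc : β → ℕ) (hacc : Primrec acc) :
    ∃ comp : α → Nat.Partrec.Code, Computable comp ∧ ∀ a b, ∃ r : QD,
      (comp a).eval (Encodable.encode b) = Part.some (Encodable.encode r) ∧
      |X (a, b) - ν * Y (a, b) - qv r| ≤ 1 / ((acc b : ℝ) + 1) := by
  obtain ⟨BY, hBY, hBY'⟩ := hY.bound
  obtain ⟨gX, hgX, hgX'⟩ := hX
  obtain ⟨gY, hgY, hgY'⟩ := hY
  obtain ⟨gν, hgν, hgν'⟩ := hν
  obtain ⟨Bν, hBν⟩ := exists_nat_ge |ν|
  -- the rational combination, as a function of the approximation of `ν`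
  have hH : QF (fun p : (α × β) × QD =>
      qv (gX (p.1, 3 * (acc p.1.2 + 1))) - qv p.2 * qv (gY (p.1, 3 * (acc p.1.2 + 1) * (Bν + 1)))) :=
    (QF.of_qd (by fun_prop)).sub ((QF.of_qd (by fun_prop)).mul (QF.of_qd (by fun_prop)))
  obtain ⟨h, hh, hh'⟩ := hH
  have hm3 : Primrec (fun p : α × β => 3 * (acc p.2 + 1) * (BY p + 1)) := by fun_prop
  have hG : Computable (fun p : α × β => h (p, gν (3 * (acc p.2 + 1) * (BY p + 1)))) :=
    hh.to_comp.comp (Computable.id.pair (hgν.comp hm3.to_comp))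
  obtain ⟨comp, hcomp, hc⟩ := exists_curry_code hG
  refine ⟨comp, hcomp, fun a b => ⟨_, hc a b, ?_⟩⟩
  rw [← hh']
  simp only
  set N : ℝ := (acc b : ℝ) + 1 with hN
  have hNpos : 0 < N := by positivity
  set x := qv (gX ((a, b), 3 * (acc b + 1)))
  set y := qv (gY ((a, b), 3 * (acc b + 1) * (Bν + 1)))
  set v := qv (gν (3 * (acc b + 1) * (BY (a, b) + 1)))
  have e1 : |X (a, b) - x| ≤ 1 / (3 * N) := by
    refine (hgX' (a, b) _).trans ?_
    apply one_div_le_one_div_of_le (by positivity)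
    push_cast
    linarith
  have e2 : |Y (a, b) - y| ≤ 1 / (3 * N * (Bν + 1)) := by
    refine (hgY' (a, b) _).trans ?_
    apply one_div_le_one_div_of_le (by positivity)
    push_cast
    linarith
  have e3 : |ν - v| ≤ 1 / (3 * N * (BY (a, b) + 1)) := by
    refine (hgν' _).trans ?_
    apply one_div_le_one_div_of_le (by positivity)
    push_cast
    linarith
  have hy : |y| ≤ (BY (a, b) : ℝ) + 1 := by
    have h1 : |y| ≤ |Y (a, b)| + |Y (a, b) - y| := by
      have := abs_sub_abs_le_abs_sub y (Y (a, b))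
      rw [abs_sub_comm] at this
      linarith
    have h2 : (1 : ℝ) / (3 * N * (Bν + 1)) ≤ 1 := by
      rw [div_le_one (by positivity)]
      have : (1 : ℝ) ≤ N := by rw [hN]; linarith [(Nat.cast_nonneg (acc b) : (0 : ℝ) ≤ acc b)]
      have h3 : (1 : ℝ) ≤ (Bν : ℝ) + 1 := by linarith [(Nat.cast_nonneg Bν : (0 : ℝ) ≤ Bν)]
      nlinarith
    linarith [hBY' (a, b)]
  have t2 : |ν * (Y (a, b) - y)| ≤ 1 / (3 * N) := by
    rw [abs_mul]
    calc |ν| * |Y (a, b) - y| ≤ ((Bν : ℝ) + 1) * (1 / (3 * N * (Bν + 1))) := by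
          apply mul_le_mul (by linarith) e2 (abs_nonneg _) (by positivity)
      _ = 1 / (3 * N) := by field_simp
  have t3 : |(ν - v) * y| ≤ 1 / (3 * N) := by
    rw [abs_mul]
    calc |ν - v| * |y| ≤ (1 / (3 * N * (BY (a, b) + 1))) * ((BY (a, b) : ℝ) + 1) := by
          apply mul_le_mul e3 hy (abs_nonneg _) (by positivity)
      _ = 1 / (3 * N) := by field_simp
  have key : X (a, b) - ν * Y (a, b) - (x - v * y)
      = (X (a, b) - x) - ν * (Y (a, b) - y) - (ν - v) * y := by ring
  rw [key]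
  have s1 := abs_sub (X (a, b) - x - ν * (Y (a, b) - y)) ((ν - v) * y)
  have s2 := abs_sub (X (a, b) - x) (ν * (Y (a, b) - y))
  have s3 : 1 / (3 * N) + 1 / (3 * N) + 1 / (3 * N) = 1 / N := by field_simp; norm_num
  linarith

end Vale.Agent.Lib.P113
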