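import Vale.Agent.Lib.P113.Eff.Base

/-!
# P113 effectivity, module E7: iterated derivatives of the one-dimensional profiles.
Statements FROZEN.  See `contDiff_comp_fract` (`Smooth.lean`) and `contDiff_comp_cfr`
(`VelSmooth.lean`): their proofs contain the local representation `g (P * fract (s / P)) = g (s - P m)`
near each point, which also gives `deriv^[n] (g ∘ saw) = (deriv^[n] g) ∘ saw`.
-/

namespace Vale.Agent.Lib.P113

open Set Filter Topology
open scoped ContDiff

/-! ### auxiliary lemmas -/

theorem oneD_shift (g : ℝ → ℝ) (c : ℝ) (n : ℕ) :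
    deriv^[n] (fun s => g (s + c)) = fun s => deriv^[n] g (s + c) := by
  induction n generalizing g with
  | zero => rfl
  | succ n ih =>
    rw [Function.iterate_succ_apply, Function.iterate_succ_apply]
    have : deriv (fun s => g (s + c)) = fun s => deriv g (s + c) := by
      funext s
      exact deriv_comp_add_const g c s
    rw [this, ih]

theorem oneD_loc (g : ℝ → ℝ) (P ε : ℝ) (hP : 0 < P) (hε : 0 < ε)
    (h0 : ∀ y, y ≤ 0 → g y = 0) (h1 : ∀ y, P - ε ≤ y → g y = 0) (s0 : ℝ) :
    (fun s => g (P * Int.fract (s / P))) =ᶠ[𝓝 s0] fun s => g (s + -(P * (⌊s0 / P⌋ : ℤ))) := by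
  set m : ℤ := ⌊s0 / P⌋ with hm
  have hs0 : s0 ∈ Ioo (P * m - ε) (P * m + P) := by
    have h1 := Int.floor_le (s0 / P)
    have h2 := Int.lt_floor_add_one (s0 / P)
    rw [← hm] at h1 h2
    rw [le_div_iff₀ hP] at h1
    rw [div_lt_iff₀ hP] at h2
    constructor <;> nlinarith
  filter_upwards [Ioo_mem_nhds hs0.1 hs0.2] with s hs
  rcases lt_or_ge s (P * m) with hlt | hge
  · rw [h0 (s + -(P * m)) (by linarith)]
    rcases le_or_gt P ε with hPe | hPe
    · apply h1
      have := Int.fract_nonneg (s / P)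
      nlinarith
    apply h1
    have hfl : ⌊s / P⌋ = m - 1 := by
      rw [Int.floor_eq_iff]
      push_cast
      constructor
      · rw [le_div_iff₀ hP]; nlinarith [hs.1]
      · rw [div_lt_iff₀ hP]; nlinarith
    have : Int.fract (s / P) = s / P - (m - 1) := by
      rw [Int.fract, hfl]; push_cast; ring
    rw [this]
    have : P * (s / P - (m - 1)) = s - P * m + P := by field_simp; ring
    rw [this]; linarith [hs.1]
  · have hfl : ⌊s / P⌋ = m := by
      rw [Int.floor_eq_iff]
      constructor
      · rw [le_div_iff₀ hP]; nlinarith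
      · rw [div_lt_iff₀ hP]; nlinarith [hs.2]
    have : Int.fract (s / P) = s / P - m := by
      rw [Int.fract, hfl]
    rw [this]
    congr 1
    field_simp
    ring

theorem oneD_deriv_zero_left (g : ℝ → ℝ) (hg : ContDiff ℝ ∞ g) (a : ℝ)
    (h0 : ∀ y, y ≤ a → g y = 0) : ∀ y, y ≤ a → deriv g y = 0 := by
  have hc : Continuous (deriv g) := (ContDiff.iterate_deriv 1 hg).continuous
  have hcl : IsClosed {s | deriv g s = 0} := isClosed_eq hc continuous_const
  have : Iic a ⊆ {s | deriv g s = 0} := by
    rw [← closure_Iio]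
    refine hcl.closure_subset_iff.2 (fun s hs => ?_)
    have hev : g =ᶠ[𝓝 s] fun _ => 0 := by
      filter_upwards [Iio_mem_nhds hs] with z hz
      exact h0 z (le_of_lt hz)
    show deriv g s = 0
    rw [hev.deriv_eq]; simp
  exact fun y hy => this hy

theorem oneD_deriv_zero_right (g : ℝ → ℝ) (hg : ContDiff ℝ ∞ g) (a : ℝ)
    (h0 : ∀ y, a ≤ y → g y = 0) : ∀ y, a ≤ y → deriv g y = 0 := by
  have hc : Continuous (deriv g) := (ContDiff.iterate_deriv 1 hg).continuous
  have hcl : IsClosed {s | deriv g s = 0} := isClosed_eq hc continuous_const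
  have : Ici a ⊆ {s | deriv g s = 0} := by
    rw [← closure_Ioi]
    refine hcl.closure_subset_iff.2 (fun s hs => ?_)
    have hev : g =ᶠ[𝓝 s] fun _ => 0 := by
      filter_upwards [Ioi_mem_nhds hs] with z hz
      exact h0 z (le_of_lt hz)
    show deriv g s = 0
    rw [hev.deriv_eq]; simp
  exact fun y hy => this hy

theorem oneD_fract (g : ℝ → ℝ) (hg : ContDiff ℝ ∞ g) (P ε : ℝ) (hP : 0 < P) (hε : 0 < ε)
    (h0 : ∀ y, y ≤ 0 → g y = 0) (h1 : ∀ y, P - ε ≤ y → g y = 0) (n : ℕ) :
    deriv^[n] (fun s => g (P * Int.fract (s / P))) =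
      fun s => deriv^[n] g (P * Int.fract (s / P)) := by
  induction n generalizing g with
  | zero => rfl
  | succ n ih =>
    rw [Function.iterate_succ_apply]
    have : deriv (fun s => g (P * Int.fract (s / P))) =
        fun s => deriv g (P * Int.fract (s / P)) := by
      funext s0
      rw [(oneD_loc g P ε hP hε h0 h1 s0).deriv_eq, deriv_comp_add_const]
      congr 1
      rw [Int.fract]
      field_simp
      ring
    rw [this, ih (deriv g) (ContDiff.iterate_deriv 1 hg) (oneD_deriv_zero_left g hg 0 h0)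
      (oneD_deriv_zero_right g hg _ h1)]
    rfl

theorem oneD_cfr (g : ℝ → ℝ) (hg : ContDiff ℝ ∞ g) (h0 : ∀ y, y ≤ -(1 / 8) → g y = 0)
    (h1 : ∀ y, 5 / 8 ≤ y → g y = 0) (n : ℕ) (u : ℝ) :
    deriv^[n] (fun u => g (cfr u)) u = deriv^[n] g (cfr u) := by
  have hG : ContDiff ℝ ∞ (fun y => g (y + -(1 / 4))) := hg.comp (contDiff_id.add contDiff_const)
  have h := oneD_fract (fun y => g (y + -(1 / 4))) hG 1 (1 / 8) one_pos (by norm_num)
    (fun y hy => h0 _ (by linarith)) (fun y hy => h1 _ (by linarith)) n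
  have h2 := oneD_shift (fun s => g (1 * Int.fract (s / 1) + -(1 / 4))) (1 / 4) n
  have e : (fun u => g (cfr u)) = fun s => g (1 * Int.fract ((s + 1 / 4) / 1) + -(1 / 4)) := by
    funext s
    simp [cfr, sub_eq_add_neg]
  rw [e, h2]
  simp only []
  rw [h, oneD_shift]
  simp [cfr, sub_eq_add_neg]

theorem oneD_sg_hasDerivAt (n : ℕ) (z : ℝ) : HasDerivAt (sg n) (sg (n + 1) z) z := by
  have hd : Differentiable ℝ (sg n) :=
    (ContDiff.iterate_deriv n stp_contDiff).differentiable (by simp)
  have h := (hd z).hasDerivAt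
  have e : sg (n + 1) z = deriv (sg n) z := by
    show deriv^[n + 1] stp z = deriv (fun s => deriv^[n] stp s) z
    rw [Function.iterate_succ_apply']
  rw [e]; exact h

theorem oneD_platD_hasDerivAt (n : ℕ) (k3 nm y : ℝ) :
    HasDerivAt (fun y => platD n k3 nm y) (platD (n + 1) k3 nm y) y := by
  unfold platD
  have hz : HasDerivAt (fun y : ℝ => 4 * (k3 * y - nm)) (4 * k3) y := by
    have := (((hasDerivAt_id y).const_mul k3).sub_const nm).const_mul 4
    simpa using this
  have hA : HasDerivAt (fun y : ℝ => sg n (4 * (k3 * y - nm) + 1))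
      (sg (n + 1) (4 * (k3 * y - nm) + 1) * (4 * k3)) y :=
    (oneD_sg_hasDerivAt n _).comp y (hz.add_const 1)
  have hB : HasDerivAt (fun y : ℝ => sg n (4 * (k3 * y - nm) - 2))
      (sg (n + 1) (4 * (k3 * y - nm) - 2) * (4 * k3)) y :=
    (oneD_sg_hasDerivAt n _).comp y (hz.sub_const 2)
  refine ((hA.sub hB).const_mul ((4 * k3) ^ n)).congr_deriv ?_
  ring

/-- the Leibniz formula for a block times an affine function -/
theorem oneD_leibniz (k3 nm al ga : ℝ) (n : ℕ) :
    deriv^[n] (fun y => plat (k3 * y - nm) * (al * y + ga)) =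
      fun y => platD n k3 nm y * (al * y + ga) + (n : ℝ) * platD (n - 1) k3 nm y * al := by
  induction n with
  | zero =>
    funext y
    simp [platD, plat, sg]
  | succ n ih =>
    rw [Function.iterate_succ_apply', ih]
    funext y
    have haff : HasDerivAt (fun y : ℝ => al * y + ga) al y := by
      simpa using ((hasDerivAt_id y).const_mul al).add_const ga
    have h1 := (oneD_platD_hasDerivAt n k3 nm y).mul haff
    have h2 : HasDerivAt (fun y => (n : ℝ) * platD (n - 1) k3 nm y * al)
        ((n : ℝ) * platD n k3 nm y * al) y := by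
      cases n with
      | zero => simpa using hasDerivAt_const y (0 : ℝ)
      | succ n =>
        exact ((oneD_platD_hasDerivAt n k3 nm y).const_mul _).mul_const al
    have h3 : HasDerivAt
        (fun y => platD n k3 nm y * (al * y + ga) + (n : ℝ) * platD (n - 1) k3 nm y * al)
        (platD (n + 1) k3 nm y * (al * y + ga) + platD n k3 nm y * al
          + (n : ℝ) * platD n k3 nm y * al) y := h1.add h2
    rw [h3.deriv]
    simp only [Nat.add_sub_cancel]
    push_cast
    ring

/-! ### the statements -/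

theorem timeFn_zero (t : ℝ) : timeFn 0 t = pls t := by
  simp [timeFn, targ]

theorem timeFn_one (t : ℝ) : timeFn 1 t = pls (t - 1) := by
  simp [timeFn, targ]

theorem timeFn_pulse (j : ℕ) (t : ℝ) : timeFn (j + 2) t = pulse j t := by
  simp [timeFn, targ, pulse]

theorem timeFn_contDiff (s : ℕ) : ContDiff ℝ ∞ (timeFn s) := by
  rcases s with _ | _ | j
  · have : timeFn 0 = pls := funext timeFn_zero
    rw [this]; exact pls_contDiff
  · have : timeFn (0 + 1) = fun t => pls (t - 1) := funext timeFn_one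
    rw [this]; exact pls_contDiff.comp (contDiff_id.sub contDiff_const)
  · have : timeFn (j + 1 + 1) = pulse j := funext (timeFn_pulse j)
    rw [this]; exact pulse_contDiff j

theorem oneD_pls_iter (n : ℕ) (z : ℝ) : deriv^[n] pls z = sg (n + 1) z := by
  show deriv^[n] (deriv stp) z = deriv^[n + 1] stp z
  rw [Function.iterate_succ_apply]

theorem timeFn_deriv (s n : ℕ) (t : ℝ) : deriv^[n] (timeFn s) t = sg (n + 1) (targ s t) := by
  rcases s with _ | _ | j
  · have : timeFn 0 = pls := funext timeFn_zero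
    rw [this, oneD_pls_iter]; simp [targ]
  · have : timeFn (0 + 1) = fun t => pls (t + -1) := by
      funext t; rw [timeFn_one, sub_eq_add_neg]
    rw [this, oneD_shift]
    show deriv^[n] pls (t + -1) = _
    rw [oneD_pls_iter]; simp [targ, sub_eq_add_neg]
  · have : timeFn (j + 1 + 1) =
        fun t => pls (14 * Int.fract ((t + -(2 + (j : ℝ))) / 14)) := by
      funext t; rw [timeFn_pulse, pulse]; congr 3; ring
    rw [this, oneD_shift (fun s => pls (14 * Int.fract (s / 14)))]
    simp only []
    rw [oneD_fract pls pls_contDiff 14 13 (by norm_num) (by norm_num)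
      (fun y hy => pls_zero_of_nonpos hy) (fun y hy => pls_zero_of_one_le (by linarith))]
    simp only []
    rw [oneD_pls_iter]
    congr 1
    simp only [targ]
    rw [if_neg (by omega), if_neg (by omega)]
    congr 3
    have : ((j + 1 + 1 - 2 : ℕ) : ℝ) = (j : ℝ) := by
      congr 1
    rw [this]
    ring

theorem oneD_left (k3 nm : ℝ) (hk : 8 ≤ k3) (h0 : 0 ≤ nm) (y : ℝ) (hy : y ≤ -(1 / 8)) :
    plat (k3 * y - nm) = 0 := by
  apply plat_zero_left
  nlinarith

theorem oneD_right (k3 nm : ℝ) (hk : 8 ≤ k3) (h1 : nm ≤ k3 / 2) (y : ℝ) (hy : 5 / 8 ≤ y) :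
    plat (k3 * y - nm) = 0 := by
  apply plat_zero_right
  nlinarith

theorem oneD_g_contDiff (k3 nm al ga : ℝ) :
    ContDiff ℝ ∞ (fun y : ℝ => plat (k3 * y - nm) * (al * y + ga)) :=
  (plat_contDiff.comp ((contDiff_const.mul contDiff_id).sub contDiff_const)).mul
    ((contDiff_const.mul contDiff_id).add contDiff_const)

theorem atomFn_contDiff (k3 nm al ga : ℝ) (h : AtomOK k3 nm al) :
    ContDiff ℝ ∞ (atomFn k3 nm al ga) := by
  rcases h with ⟨rfl, rfl, rfl⟩ | ⟨hk, h0, h1⟩
  · have : atomFn 0 0 0 ga = fun _ => plat 0 * ga := by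
      funext u; simp [atomFn]
    rw [this]; exact contDiff_const
  · exact contDiff_comp_cfr (fun y => plat (k3 * y - nm) * (al * y + ga))
      (oneD_g_contDiff k3 nm al ga)
      (fun y hy => by rw [oneD_left k3 nm hk h0 y hy, zero_mul])
      (fun y hy => by rw [oneD_right k3 nm hk h1 y hy, zero_mul])

theorem atomFn_deriv (k3 nm al ga : ℝ) (h : AtomOK k3 nm al) (n : ℕ) (u : ℝ) :
    deriv^[n] (atomFn k3 nm al ga) u = atomD n k3 nm al ga u := by
  rcases h with ⟨rfl, rfl, rfl⟩ | ⟨hk, h0, h1⟩
  · have : atomFn 0 0 0 ga = fun y => plat (0 * y - 0) * (0 * y + ga) := by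
      funext u; simp [atomFn]
    rw [this, oneD_leibniz]
    simp [atomD, platD]
  · have : atomFn k3 nm al ga = fun u => (fun y => plat (k3 * y - nm) * (al * y + ga)) (cfr u) := by
      funext u; rfl
    rw [this, oneD_cfr (fun y => plat (k3 * y - nm) * (al * y + ga))
      (oneD_g_contDiff k3 nm al ga)
      (fun y hy => by rw [oneD_left k3 nm hk h0 y hy, zero_mul])
      (fun y hy => by rw [oneD_right k3 nm hk h1 y hy, zero_mul]), oneD_leibniz]
    rfl

end Vale.Agent.Lib.P113
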