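import Vale.Agent.Lib.P113.Eff.RawEnum

/-!
# P113 effectivity, module E9: lists of raw terms describing the pieces of the velocity field.
-/

namespace Vale.Agent.Lib.P113

open Machine

local instance instPcUSym : Primcodable USym := inferInstance
local instance instPcUSym3 : Primcodable USym3 := inferInstance
local instance instPcDesc : Primcodable Desc := inferInstance
local instance instPcAtom : Primcodable Atom := inferInstance
local instance instPcRawTerm : Primcodable RawTerm := inferInstance
local instance instPcEntry : Primcodable (Bool × List USym × ℕ) := inferInstance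

/-! ### raw versions of the numerical data -/

noncomputable def rval (a : USym) : ℝ := ((Encodable.encode a : ℕ) : ℝ)

noncomputable def rnum (D : Desc) (π : USym3) : ℝ :=
  (rval π.1 * rk D + rval π.2.1) * rk D + rval π.2.2

noncomputable def rpopn (D : Desc) (j : ℕ) (π : USym3) (y : ℝ) : ℝ :=
  if j = 0 then y else if j = 1 then rk D * y - rval π.1
  else if j = 2 then rk D * (rk D * y - rval π.1) - rval π.2.1
  else rk D * (rk D * (rk D * y - rval π.1) - rval π.2.1) - rval π.2.2

noncomputable def rpushl (D : Desc) (pre : List USym) (y : ℝ) : ℝ :=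
  pre.foldr (fun a z => (rval a + z) / rk D) y

/-- index type `(D, π, pre, j)` -/
abbrev PP := Desc × USym3 × List USym × ℕ

noncomputable def rpp (p : PP) (y : ℝ) : ℝ := rpushl p.1 p.2.2.1 (rpopn p.1 p.2.2.2 p.2.1 y)

theorem val_rval {M : Machine} (a : M.Sym) : (val a : ℝ) = rval (erase a) := by
  rw [val_erase]; rfl

theorem num_descr {M : Machine} (π : M.Sym3) : num π = rnum M.descr (erase3 π) := by
  simp only [num, rnum, val_rval, k_descr, erase3]

theorem popn_descr {M : Machine} (j : ℕ) (π : M.Sym3) (y : ℝ) :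
    popn j π y = rpopn M.descr j (erase3 π) y := by
  rcases j with _ | _ | _ | j <;> simp [popn, rpopn, val_rval, k_descr, erase3]

theorem pushl_descr {M : Machine} (pre : List M.Sym) (y : ℝ) :
    pushl pre y = rpushl M.descr (pre.map erase) y := by
  simp only [pushl, rpushl, List.foldr_map, val_rval, k_descr]

theorem pp_descr {M : Machine} (π : M.Sym3) (pre : List M.Sym) (j : ℕ) (y : ℝ) :
    pushl pre (popn j π y) = rpp (M.descr, erase3 π, pre.map erase, j) y := by
  rw [pushl_descr, popn_descr]; rfl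

theorem rpp_affine (p : PP) (y : ℝ) : rpp p y = (rpp p 1 - rpp p 0) * y + rpp p 0 := by
  have h : ∃ a b : ℝ, ∀ y, rpp p y = a * y + b := by
    obtain ⟨D, π, pre, j⟩ := p
    have h1 : ∃ a b : ℝ, ∀ y, rpopn D j π y = a * y + b := by
      unfold rpopn
      split_ifs
      · exact ⟨1, 0, fun y => by ring⟩
      · exact ⟨rk D, - rval π.1, fun y => by ring⟩
      · exact ⟨rk D * rk D, - rk D * rval π.1 - rval π.2.1, fun y => by ring⟩
      · exact ⟨rk D * rk D * rk D, - rk D * rk D * rval π.1 - rk D * rval π.2.1 - rval π.2.2,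
          fun y => by ring⟩
    obtain ⟨a, b, hab⟩ := h1
    simp only [rpp, hab]
    induction pre with
    | nil => exact ⟨a, b, fun y => rfl⟩
    | cons s pre ih =>
      obtain ⟨a', b', h'⟩ := ih
      refine ⟨a' / rk D, (rval s + b') / rk D, fun y => ?_⟩
      have : rpushl D (s :: pre) (a * y + b) = (rval s + rpushl D pre (a * y + b)) / rk D := rfl
      rw [this, h']
      ring
  obtain ⟨a, b, h⟩ := h
  rw [h y, h 1, h 0]
  ring

/-! ### `QF` properties -/

theorem rval_QF {α : Type*} [Primcodable α] {f : α → USym} (hf : Primrec f) :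
    QF (fun a => rval (f a)) := QF.natCast (f := fun a => Encodable.encode (f a)) (by fun_prop)

theorem rnum_QF : QF (fun p : Desc × USym3 => rnum p.1 p.2) := by
  have hk : QF (fun p : Desc × USym3 => rk p.1) := rk_QF.comp (by fun_prop)
  exact ((((rval_QF (by fun_prop)).mul hk).add (rval_QF (by fun_prop))).mul hk).add
    (rval_QF (by fun_prop))

theorem rk3_QF : QF (fun D : Desc => rk D ^ 3) := rk_QF.pow (e := fun _ => 3) (by fun_prop)

theorem rpp_QF (c : ℕ) : QF (fun p : PP => rpp p (c : ℝ)) := by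
  have hk : QF (fun p : PP => rk p.1) := rk_QF.comp (by fun_prop)
  have hc : QF (fun _ : PP => (c : ℝ)) := QF.natCast (f := fun _ => c) (by fun_prop)
  have v1 : QF (fun p : PP => rval p.2.1.1) := rval_QF (by fun_prop)
  have v2 : QF (fun p : PP => rval p.2.1.2.1) := rval_QF (by fun_prop)
  have v3 : QF (fun p : PP => rval p.2.1.2.2) := rval_QF (by fun_prop)
  have e1 := (hk.mul hc).sub v1
  have e2 := (hk.mul e1).sub v2
  have e3 := (hk.mul e2).sub v3
  have hz : QF (fun p : PP => rpopn p.1 p.2.2.2 p.2.1 (c : ℝ)) := by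
    refine (QF.ite (c := fun p : PP => decide (p.2.2.2 = 0)) (by fun_prop) hc
      (QF.ite (c := fun p : PP => decide (p.2.2.2 = 1)) (by fun_prop) e1
        (QF.ite (c := fun p : PP => decide (p.2.2.2 = 2)) (by fun_prop) e2 e3))).of_eq fun p => ?_
    simp [rpopn]
  have hS : QF (fun q : PP × USym × QD => (rval q.2.1 + qv q.2.2) / rk q.1.1) :=
    ((rval_QF (by fun_prop)).add (QF.of_qd (by fun_prop))).div (rk_QF.comp (by fun_prop))
  exact QF.list_foldr hS (l := fun p : PP => p.2.2.1) (by fun_prop) hz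
    (fun p a z => (rval a + z) / rk p.1) (fun _ _ _ => rfl)

/-! ### atoms and terms -/

theorem qv_zero : qv (0, 0, 0) = 0 := by simp [qv]

theorem qv_one : qv (1, 0, 0) = 1 := by simp [qv]

theorem Atom.one_fn (u : ℝ) : Atom.one.fn u = 1 := by
  simp only [Atom.fn, Atom.one, atomFn, qv_zero, qv_one]
  rw [plat_one (by norm_num) (by norm_num)]
  norm_num

theorem Atom.one_OK : Atom.one.OK := Or.inl ⟨qv_zero, qv_zero, qv_zero⟩

/-- put the atoms `A`, `B` at the two source coordinates of the target coordinate `c` -/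
def place (c : Fin 3) (A B : Atom) : Atom × Atom × Atom :=
  ![(Atom.one, A, B), (A, Atom.one, B), (A, B, Atom.one)] c

theorem pr_place {α : Type*} [Primcodable α] (c : Fin 3) {f g : α → Atom} (hf : Primrec f)
    (hg : Primrec g) : Primrec (fun a => place c (f a) (g a)) := by
  fin_cases c <;> simp only [place] <;> simp <;> fun_prop

theorem val_place (c : Fin 3) (sq : QD) (s : ℕ) (A B : Atom) (i : Fin 3) (t : ℝ) (x : V3) :
    RawTerm.val ((c : ℕ), sq, s, place c A B) i t x
      = (if c = i then qv sq else 0) * (timeFn s t * (A.fn (x (oa c)) * B.fn (x (ob c)))) := by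
  have hci : ((c : ℕ) = (i : ℕ)) ↔ c = i := by rw [Fin.ext_iff]
  fin_cases c <;>
    simp [RawTerm.val, RawTerm.cf, RawTerm.atom, place, sep, oa, ob, Atom.one_fn, Fin.ext_iff]

theorem OK_place (c : Fin 3) (sq : QD) (s : ℕ) {A B : Atom} (hA : A.OK) (hB : B.OK) :
    RawTerm.OK ((c : ℕ), sq, s, place c A B) := by
  intro c'
  fin_cases c <;> fin_cases c' <;> simp [RawTerm.atom, place, hA, hB, Atom.one_OK]

theorem timeFn_add_two (j : ℕ) (t : ℝ) : timeFn (j + 2) t = pulse j t := by
  simp [timeFn, targ, pulse]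

theorem ee_apply (c i : Fin 3) : ee c i = if c = i then 1 else 0 := by
  unfold ee
  rw [Pi.single_apply]
  simp only [eq_comm]

/-- one register operation, in the time slot `slot` (time profile `pulse slot = timeFn (slot+2)`) -/
theorem exists_opTerms (slot : ℕ) (c : Fin 3) (sq : QD) (rt : Desc × USym3 × USym3 → REntry)
    (hrt : Primrec rt) : ∃ R : Desc → List RawTerm, Primrec R ∧
    ∀ (M : Machine) (o : M.Op), o.c = c → o.sg = qv sq →
      (∀ π ρ : M.Sym3, rt (M.descr, erase3 π, erase3 ρ) = eraseE (o.tab π ρ)) →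
      Describes (R M.descr) (fun t x => pulse slot t • (o.G x • ee c)) := by
  obtain ⟨gk, hgk, hgk'⟩ := rk3_QF
  obtain ⟨gn, hgn, hgn'⟩ := rnum_QF
  obtain ⟨gg, hgg, hgg'⟩ := rpp_QF 0
  obtain ⟨ga, hga, hga'⟩ := (rpp_QF 1).sub (rpp_QF 0)
  -- the two kinds of atoms
  set blk : Desc × USym3 → Atom := fun p => (gk p.1, gn p, (0, 0, 0), (1, 0, 0)) with hblk
  set aff : PP → Atom := fun p => (gk p.1, gn (p.1, p.2.1), ga p, gg p) with haff
  have pblk : Primrec blk := by fun_prop
  have paff : Primrec aff := by fun_prop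
  -- the term of an entry
  set mk : Desc × USym3 × USym3 × (Bool × List USym × ℕ) → RawTerm := fun p =>
    ((c : ℕ), sq, slot + 2, place c
      (cond p.2.2.2.1 (blk (p.1, p.2.1)) (aff (p.1, p.2.1, p.2.2.2.2.1, p.2.2.2.2.2)))
      (cond p.2.2.2.1 (aff (p.1, p.2.2.1, p.2.2.2.2.1, p.2.2.2.2.2)) (blk (p.1, p.2.2.1)))) with hmk
  have pmk : Primrec mk := by
    have := pr_place c (α := Desc × USym3 × USym3 × (Bool × List USym × ℕ))
      (f := fun p => cond p.2.2.2.1 (blk (p.1, p.2.1)) (aff (p.1, p.2.1, p.2.2.2.2.1, p.2.2.2.2.2)))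
      (g := fun p => cond p.2.2.2.1 (aff (p.1, p.2.2.1, p.2.2.2.2.1, p.2.2.2.2.2)) (blk (p.1, p.2.2.1)))
      (by fun_prop) (by fun_prop)
    fun_prop
  set cell : Desc × USym3 × USym3 → List RawTerm := fun p =>
    (rt p).elim [] fun e => [mk (p.1, p.2.1, p.2.2, e)] with hcell
  have pcell : Primrec cell := by fun_prop
  refine ⟨fun D => (syms3 D).flatMap fun π => (syms3 D).flatMap fun ρ => cell (D, π, ρ),
    by fun_prop, fun M o hc hsg htab => ?_⟩
  -- typed facts about the atoms
  have fblk : ∀ (π : M.Sym3) (u : ℝ), (blk (M.descr, erase3 π)).fn u = bl π u := by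
    intro π u
    simp only [hblk, Atom.fn, atomFn, ← hgk', ← hgn', qv_zero, qv_one, bl, k_descr, num_descr]
    ring
  have faff : ∀ (π : M.Sym3) (pre : List M.Sym) (j : ℕ) (u : ℝ),
      (aff (M.descr, erase3 π, pre.map erase, j)).fn u = bl π u * pushl pre (popn j π (cfr u)) := by
    intro π pre j u
    rw [pp_descr, rpp_affine]
    simp only [haff, Atom.fn, atomFn, ← hgk', ← hgn', ← hgg', ← hga', bl, k_descr, num_descr,
      Nat.cast_zero, Nat.cast_one]
  have hOK : ∀ π : M.Sym3, AtomOK (rk M.descr ^ 3) (rnum M.descr (erase3 π)) 0 ∧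
      ∀ al, AtomOK (rk M.descr ^ 3) (rnum M.descr (erase3 π)) al := by
    intro π
    have h : ∀ al, AtomOK (rk M.descr ^ 3) (rnum M.descr (erase3 π)) al := fun al =>
      Or.inr ⟨by rw [← k_descr]; exact k3_ge, by rw [← num_descr]; exact num_nonneg π,
        by rw [← num_descr, ← k_descr]; exact num_le π⟩
    exact ⟨h 0, h⟩
  have oblk : ∀ π : M.Sym3, (blk (M.descr, erase3 π)).OK := by
    intro π
    simp only [hblk, Atom.OK, ← hgk', ← hgn']
    exact (hOK π).2 _
  have oaff : ∀ (π : M.Sym3) (pre : List USym) (j : ℕ), (aff (M.descr, erase3 π, pre, j)).OK := by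
    intro π pre j
    simp only [haff, Atom.OK, ← hgk', ← hgn']
    exact (hOK π).2 _
  have E := enum_syms3 M
  refine ⟨fun τ hτ => ?_, fun t x i => ?_⟩
  · obtain ⟨π', hπ', hτ⟩ := List.mem_flatMap.1 hτ
    obtain ⟨ρ', hρ', hτ⟩ := List.mem_flatMap.1 hτ
    obtain ⟨π, rfl⟩ := (E.2 π').1 hπ'
    obtain ⟨ρ, rfl⟩ := (E.2 ρ').1 hρ'
    simp only [hcell] at hτ
    rcases h : rt (M.descr, erase3 π, erase3 ρ) with _ | ⟨src, pre, j⟩
    · simp [h] at hτ
    · simp only [h, Option.elim_some, List.mem_singleton] at hτ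
      subst hτ
      simp only [hmk]
      apply OK_place
      · cases src
        · exact oaff _ _ _
        · exact oblk _
      · cases src
        · exact oblk _
        · exact oaff _ _ _
  · rw [sum_map_flatMap, ← E.1]
    simp only [sum_map_flatMap]
    simp only [← E.1 (fun ρ' => ((cell (M.descr, _, ρ')).map fun τ => τ.val i t x).sum)]
    simp only [Pi.smul_apply, smul_eq_mul, ee_apply, Op.G, hc]
    rw [Finset.mul_sum, Finset.sum_mul, Finset.mul_sum]
    apply Finset.sum_congr rfl
    intro π _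
    rw [Finset.mul_sum, Finset.sum_mul, Finset.mul_sum]
    apply Finset.sum_congr rfl
    intro ρ _
    simp only [hcell, htab]
    rcases o.tab π ρ with _ | ⟨src, pre, j⟩
    · simp [eraseE, term]
    · simp only [eraseE, Option.map_some, Option.elim_some, List.map_cons, List.map_nil,
        List.sum_cons, List.sum_nil, add_zero, hmk, val_place, timeFn_add_two, hsg]
      cases src
      · simp only [cond_false, faff, fblk, term]
        split_ifs <;> ring
      · simp only [cond_true, faff, fblk, term]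
        split_ifs <;> ring

/-- the halting detector -/
theorem exists_detTerms (rh : Desc × USym → Bool) (hrh : Primrec rh)
    (h : ∀ (M : Machine) (a : M.Sym), rh (M.descr, erase a) = haltMark a) :
    ∃ R : Desc → List RawTerm, Primrec R ∧
    ∀ M : Machine, Describes (R M.descr) (fun t x => pulse 0 t • (M.Gdet x • ee 2)) := by
  obtain ⟨gk, hgk, hgk'⟩ := rk3_QF
  obtain ⟨gn, hgn, hgn'⟩ := rnum_QF
  set blk : Desc × USym3 → Atom := fun p => (gk p.1, gn p, (0, 0, 0), (1, 0, 0)) with hblk
  have pblk : Primrec blk := by fun_prop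
  set cell : Desc × USym3 → List RawTerm := fun p =>
    cond (rh (p.1, p.2.1)) [(2, (3, 0, 3), 2, Atom.one, blk p, Atom.one)] [] with hcell
  have pcell : Primrec cell := by fun_prop
  refine ⟨fun D => (syms3 D).flatMap fun ρ => cell (D, ρ), by fun_prop, fun M => ?_⟩
  have fblk : ∀ (π : M.Sym3) (u : ℝ), (blk (M.descr, erase3 π)).fn u = bl π u := by
    intro π u
    simp only [hblk, Atom.fn, atomFn, ← hgk', ← hgn', qv_zero, qv_one, bl, k_descr, num_descr]
    ring
  have oblk : ∀ π : M.Sym3, (blk (M.descr, erase3 π)).OK := by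
    intro π
    simp only [hblk, Atom.OK, ← hgk', ← hgn']
    exact Or.inr ⟨by rw [← k_descr]; exact k3_ge, by rw [← num_descr]; exact num_nonneg π,
        by rw [← num_descr, ← k_descr]; exact num_le π⟩
  have E := enum_syms3 M
  have q34 : qv (3, 0, 3) = 3 / 4 := by simp [qv]; norm_num
  refine ⟨fun τ hτ => ?_, fun t x i => ?_⟩
  · obtain ⟨ρ', hρ', hτ⟩ := List.mem_flatMap.1 hτ
    obtain ⟨ρ, rfl⟩ := (E.2 ρ').1 hρ'
    simp only [hcell] at hτ
    cases hh : rh (M.descr, (erase3 ρ).1)
    · simp [hh] at hτ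
    · simp only [hh, cond_true, List.mem_singleton] at hτ
      subst hτ
      intro c'
      fin_cases c' <;> simp [RawTerm.atom, Atom.one_OK, oblk]
  · rw [sum_map_flatMap, ← E.1]
    simp only [Pi.smul_apply, smul_eq_mul, ee_apply, Gdet]
    rw [Finset.mul_sum, Finset.sum_mul, Finset.mul_sum]
    apply Finset.sum_congr rfl
    intro ρ _
    have e1 : (erase3 ρ).1 = erase ρ.1 := rfl
    simp only [hcell, e1, h]
    cases haltMark ρ.1
    · simp
    · have ht : timeFn 2 t = pulse 0 t := timeFn_add_two 0 t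
      have hi : ((2 : ℕ) = (i : ℕ)) ↔ (2 : Fin 3) = i := by
        rw [Fin.ext_iff]; rfl
      simp only [cond_true, List.map_cons, List.map_nil, List.sum_cons, List.sum_nil, add_zero,
        RawTerm.val, RawTerm.cf, sep, RawTerm.atom, if_true, ht, q34, hi]
      simp only [Matrix.cons_val_zero, Matrix.cons_val_one, Matrix.cons_val, Atom.one_fn, fblk]
      split_ifs <;> ring

/-- the two initial translations -/
theorem exists_inTerms : ∃ R : Desc × List ℕ → List RawTerm, Primrec R ∧
    ∀ (M : Machine) (w : List M.S), Describes (R (M.descr, Machine.word w))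
      (fun t _ => pls t • (M.encIn w • ee 0) + pls (t - 1) • (M.encMk • ee 1)) := by
  have hS : QF (fun q : (Desc × List ℕ) × ℕ × QD =>
      (rval (Sum.inl (Sum.inl q.2.1)) + qv q.2.2) / rk q.1.1) :=
    ((rval_QF (by fun_prop)).add (QF.of_qd (by fun_prop))).div (rk_QF.comp (by fun_prop))
  obtain ⟨gi, hgi, hgi'⟩ := QF.list_foldr hS (l := fun p : Desc × List ℕ => p.2) (by fun_prop)
    (z := fun _ => ((0 : ℕ) : ℝ)) (QF.natCast (f := fun _ => 0) (by fun_prop))
    (fun p s z => (rval (Sum.inl (Sum.inl s)) + z) / rk p.1) (fun _ _ _ => rfl)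
  obtain ⟨gm, hgm, hgm'⟩ : QF (fun D : Desc => (rval (Sum.inr (0, true)) + 0) / rk D) :=
    ((rval_QF (f := fun _ : Desc => (Sum.inr (0, true) : USym)) (by fun_prop)).add
      (QF.natCast (f := fun _ => 0) (by fun_prop))).div rk_QF |>.of_eq fun D => by simp
  refine ⟨fun p => [(0, gi p, 0, Atom.one, Atom.one, Atom.one),
    (1, gm p.1, 1, Atom.one, Atom.one, Atom.one)], by fun_prop, fun M w => ?_⟩
  have e1 : M.encIn w = qv (gi (M.descr, Machine.word w)) := by
    rw [← hgi']
    simp only [Machine.encIn, Machine.word, List.foldr_map]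
    induction w with
    | nil => simp [enc]
    | cons s w ih =>
      simp only [List.map_cons, enc, ih, val_rval, k_descr]
      rfl
  have e2 : M.encMk = qv (gm M.descr) := by
    rw [← hgm']
    simp only [Machine.encMk, enc, val_rval, k_descr]
    rfl
  refine ⟨fun τ hτ => ?_, fun t x i => ?_⟩
  · simp only [List.mem_cons, List.not_mem_nil, or_false] at hτ
    rcases hτ with rfl | rfl <;> intro c' <;> fin_cases c' <;> simp [RawTerm.atom, Atom.one_OK]
  · have t0 : timeFn 0 t = pls t := by simp [timeFn, targ]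
    have t1 : timeFn 1 t = pls (t - 1) := by simp [timeFn, targ]
    simp only [List.map_cons, List.map_nil, List.sum_cons, List.sum_nil, add_zero, RawTerm.val,
      RawTerm.cf, sep, RawTerm.atom, t0, t1, ← e1, ← e2, Pi.add_apply, Pi.smul_apply, smul_eq_mul,
      ee_apply]
    simp only [Matrix.cons_val_zero, Matrix.cons_val_one, Matrix.cons_val, Atom.one_fn]
    fin_cases i <;> simp [mul_comm]

end Vale.Agent.Lib.P113
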