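import Vale.Agent.Lib.P113.Eff.Base

/-!
# P113 effectivity, module E8: the tables of the register operations are primitive recursive in the
description of the machine.
-/

namespace Vale.Agent.Lib.P113

open Machine

/-- raw transition table look-up -/
def rdelta (D : Desc) (q s : ℕ) : ℕ × ℕ × Bool := (D.2.2.2.getD q []).getD s (0, 0, false)

/-- raw halting table look-up -/
def rhaltq (D : Desc) (q : ℕ) : Bool := D.2.2.1.getD q false

theorem getD_ofFn {α : Type*} {n : ℕ} (f : Fin n → α) (i : Fin n) (d : α) :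
    (List.ofFn f).getD i d = f i := by
  rw [List.getD_eq_getElem _ _ (by simp), List.getElem_ofFn]

theorem rdelta_descr (M : Machine) (q : M.Q) (s : M.S) :
    rdelta M.descr q s = (((M.δ q s).1 : ℕ), ((M.δ q s).2.1 : ℕ), (M.δ q s).2.2) := by
  unfold rdelta descr
  simp only
  rw [getD_ofFn, getD_ofFn]

theorem rhaltq_descr (M : Machine) (q : M.Q) : rhaltq M.descr q = M.halt q := by
  unfold rhaltq descr
  simp only
  rw [getD_ofFn]

/-- raw version of `info` -/
def rinfo (ρ : USym3) : Option (Bool × USym × USym × ℕ) :=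
  Sum.elim (fun _ => none)
    (fun m : ℕ × Bool => Sum.elim
      (fun c2 : ℕ ⊕ ((ℕ × Bool) × ℕ) => Sum.elim
        (fun _ => Sum.elim
          (fun c3 : ℕ ⊕ ((ℕ × Bool) × ℕ) => Sum.elim (fun _ => none)
            (fun g : (ℕ × Bool) × ℕ =>
              some (decide (g.1.2 = m.2), (Sum.inl (Sum.inl g.2) : USym), (Sum.inr g.1 : USym), 3))
            c3)
          (fun _ => none) ρ.2.2)
        (fun g : (ℕ × Bool) × ℕ =>
          some (true, (Sum.inl (Sum.inr g) : USym), (Sum.inr m : USym), 2)) c2)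
      (fun _ => none) ρ.2.1)
    ρ.1

theorem rinfo_primrec : Primrec rinfo := by
  unfold rinfo
  fun_prop

theorem rinfo_erase {M : Machine} (ρ : M.Sym3) :
    rinfo (erase3 ρ) = (info ρ).map fun r => (r.1, erase r.2.1, erase r.2.2.1, r.2.2.2) := by
  obtain ⟨(( _ | _) | m), ((_ | g) | _), ((_ | g') | _)⟩ := ρ <;> simp [rinfo, erase3, erase, info]

/-- raw version of `tabF` -/
def rtabF (f : USym → USym → ℕ → Bool × List USym × ℕ) (ρ : USym3) : REntry :=
  (rinfo ρ).elim none fun r => cond r.1 (some (f r.2.1 r.2.2.1 r.2.2.2)) none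

/-- raw version of `tabT` -/
def rtabT (f : USym → USym → ℕ → Bool × List USym × ℕ) (ρ : USym3) : REntry :=
  (rinfo ρ).elim none fun r => cond r.1 none (some (f r.2.1 r.2.2.1 r.2.2.2))

theorem rtabF_primrec {f : USym → USym → ℕ → Bool × List USym × ℕ}
    (hf : Primrec fun p : USym × USym × ℕ => f p.1 p.2.1 p.2.2) : Primrec (rtabF f) := by
  have := rinfo_primrec
  unfold rtabF
  fun_prop

theorem rtabT_primrec {f : USym → USym → ℕ → Bool × List USym × ℕ}
    (hf : Primrec fun p : USym × USym × ℕ => f p.1 p.2.1 p.2.2) : Primrec (rtabT f) := by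
  have := rinfo_primrec
  unfold rtabT
  fun_prop

theorem rtabF_erase {M : Machine} (f : M.Sym → M.Sym → ℕ → Bool × List M.Sym × ℕ)
    (rf : USym → USym → ℕ → Bool × List USym × ℕ)
    (h : ∀ c m j, rf (erase c) (erase m) j = ((f c m j).1, (f c m j).2.1.map erase, (f c m j).2.2))
    (π ρ : M.Sym3) : rtabF rf (erase3 ρ) = eraseE (tabF f π ρ) := by
  unfold rtabF tabF
  rw [rinfo_erase]
  rcases info ρ with _ | ⟨_ | _, c, m, j⟩ <;> simp [eraseE, h]

theorem rtabT_erase {M : Machine} (f : M.Sym → M.Sym → ℕ → Bool × List M.Sym × ℕ)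
    (rf : USym → USym → ℕ → Bool × List USym × ℕ)
    (h : ∀ c m j, rf (erase c) (erase m) j = ((f c m j).1, (f c m j).2.1.map erase, (f c m j).2.2))
    (π ρ : M.Sym3) : rtabT rf (erase3 ρ) = eraseE (tabT f π ρ) := by
  unfold rtabT tabT
  rw [rinfo_erase]
  rcases info ρ with _ | ⟨_ | _, c, m, j⟩ <;> simp [eraseE, h]

/-- raw version of `tab1` -/
def rtab1 (D : Desc) (π ρ : USym3) : REntry :=
  Sum.elim (fun _ => none)
    (fun m : ℕ × Bool => Sum.elim
      (fun c : ℕ ⊕ ((ℕ × Bool) × ℕ) => Sum.elim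
        (fun s : ℕ =>
          cond (decide ((rdelta D m.1 s).2.2 = m.2))
            (some (true, [(Sum.inr ((rdelta D m.1 s).1, m.2) : USym),
              Sum.inl (Sum.inl (rdelta D m.1 s).2.1), Sum.inl (Sum.inr (m, s))], 1))
            (some (false, [(Sum.inr ((rdelta D m.1 s).1, (rdelta D m.1 s).2.2) : USym),
              Sum.inl (Sum.inl (rdelta D m.1 s).2.1), Sum.inl (Sum.inr (m, s))], 1)))
        (fun g : (ℕ × Bool) × ℕ =>
          some (true, [(Sum.inr m : USym), Sum.inl (Sum.inr g)], 1)) c)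
      (fun _ => none) π.1)
    ρ.1

theorem rtab1_primrec : Primrec (fun p : Desc × USym3 × USym3 => rtab1 p.1 p.2.1 p.2.2) := by
  unfold rtab1 rdelta
  fun_prop

theorem rtab1_erase (M : Machine) (π ρ : M.Sym3) :
    rtab1 M.descr (erase3 π) (erase3 ρ) = eraseE (tab1 π ρ) := by
  obtain ⟨((s | g) | m'), π2, π3⟩ := π <;> obtain ⟨((s' | g') | m), ρ2, ρ3⟩ := ρ <;>
    simp [rtab1, erase3, erase, tab1, eraseE, rdelta_descr]
  split_ifs with h <;> simp [erase, h]

theorem exists_rtab (j : Fin 11) : ∃ rt : Desc × USym3 × USym3 → REntry, Primrec rt ∧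
    ∀ (M : Machine) (π ρ : M.Sym3),
      rt (M.descr, erase3 π, erase3 ρ) = eraseE ((M.ops j).tab π ρ) := by
  have F : ∀ (rf : USym → USym → ℕ → Bool × List USym × ℕ),
      (Primrec fun p : USym × USym × ℕ => rf p.1 p.2.1 p.2.2) →
      Primrec (fun p : Desc × USym3 × USym3 => rtabF rf p.2.2) := fun rf h =>
    (rtabF_primrec h).comp (by fun_prop)
  have T : ∀ (rf : USym → USym → ℕ → Bool × List USym × ℕ),
      (Primrec fun p : USym × USym × ℕ => rf p.1 p.2.1 p.2.2) →
      Primrec (fun p : Desc × USym3 × USym3 => rtabT rf p.2.2) := fun rf h =>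
    (rtabT_primrec h).comp (by fun_prop)
  fin_cases j
  · exact ⟨_, rtab1_primrec, fun M π ρ => rtab1_erase M π ρ⟩
  · exact ⟨_, F (fun _ m j => (true, [m], j)) (by fun_prop),
      fun M π ρ => rtabF_erase _ _ (fun c m j => by simp) π ρ⟩
  · exact ⟨_, T (fun c _ j => (true, [c], j)) (by fun_prop),
      fun M π ρ => rtabT_erase _ _ (fun c m j => by simp) π ρ⟩
  · exact ⟨_, F (fun _ _ _ => (false, [], 1)) (by fun_prop),
      fun M π ρ => rtabF_erase _ _ (fun c m j => by simp) π ρ⟩
  · exact ⟨_, T (fun _ _ _ => (false, [], 1)) (by fun_prop),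
      fun M π ρ => rtabT_erase _ _ (fun c m j => by simp) π ρ⟩
  · exact ⟨_, F (fun c _ _ => (false, [c], 0)) (by fun_prop),
      fun M π ρ => rtabF_erase _ _ (fun c m j => by simp) π ρ⟩
  · exact ⟨_, T (fun _ m _ => (false, [m], 0)) (by fun_prop),
      fun M π ρ => rtabT_erase _ _ (fun c m j => by simp) π ρ⟩
  · exact ⟨_, F (fun _ _ _ => (false, [], 0)) (by fun_prop),
      fun M π ρ => rtabF_erase _ _ (fun c m j => by simp) π ρ⟩
  · exact ⟨_, F (fun _ _ _ => (false, [], 0)) (by fun_prop),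
      fun M π ρ => rtabF_erase _ _ (fun c m j => by simp) π ρ⟩
  · exact ⟨fun _ => some (true, [], 0), by fun_prop, fun M π ρ => rfl⟩
  · exact ⟨fun _ => some (true, [], 0), by fun_prop, fun M π ρ => rfl⟩

theorem exists_rhalt : ∃ rh : Desc × USym → Bool, Primrec rh ∧
    ∀ (M : Machine) (a : M.Sym), rh (M.descr, erase a) = haltMark a := by
  refine ⟨fun p => Sum.elim (fun _ => false) (fun m : ℕ × Bool => rhaltq p.1 m.1) p.2, ?_, ?_⟩
  · unfold rhaltq
    fun_prop
  · intro M a
    obtain ((s | g) | m) := a <;> simp [erase, haltMark, rhaltq_descr]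

end Vale.Agent.Lib.P113
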