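import Vale.Agent.Lib.P113.Eff.ProfPR
import Vale.Agent.Lib.P113.Eff.Calc
import Vale.Agent.Lib.P113.Eff.OneD
import Vale.Agent.Lib.P113.Eff.RawTab
import Vale.Agent.Lib.P113.Eff.RawOps
import Vale.Agent.Lib.P113.Eff.Code
import Vale.Agent.Lib.P113.Final

/-!
# P113 effectivity, module E10: assembly
-/

namespace Vale.Agent.Lib.P113

open Machine
open scoped ContDiff

/-! ### lists of raw terms for the whole velocity field -/

theorem Describes.append {L L' : List RawTerm} {u u' : ℝ → V3 → V3} (h : Describes L u)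
    (h' : Describes L' u') : Describes (L ++ L') (fun t x => u t x + u' t x) := by
  refine ⟨fun τ hτ => ?_, fun t x i => ?_⟩
  · rcases List.mem_append.1 hτ with h1 | h1
    · exact h.1 τ h1
    · exact h'.1 τ h1
  · rw [List.map_append, List.sum_append, ← h.2, ← h'.2]; rfl

theorem Describes.flatMap {ι : Type*} (l : List ι) (L : ι → List RawTerm) (u : ι → ℝ → V3 → V3)
    (h : ∀ j, Describes (L j) (u j)) :
    Describes (l.flatMap L) (fun t x => (l.map fun j => u j t x).sum) := by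
  induction l with
  | nil => exact ⟨fun τ hτ => by simp at hτ, fun t x i => by simp⟩
  | cons j l ih =>
    have := (h j).append ih
    simpa [List.flatMap_cons] using this

theorem primrec_flatMap_fixed {ι α β : Type*} [Primcodable α] [Primcodable β] (l : List ι)
    (f : ι → α → List β) (hf : ∀ j, Primrec (f j)) : Primrec (fun a => l.flatMap fun j => f j a) := by
  induction l with
  | nil => simpa using Primrec.const []
  | cons j l ih =>
    have := hf j
    simp only [List.flatMap_cons]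
    fun_prop

/-- target coordinates of the eleven operations -/
def opC : Fin 11 → Fin 3 := ![2, 1, 0, 1, 0, 0, 1, 0, 1, 1, 2]

/-- signs of the eleven operations -/
def opS : Fin 11 → QD :=
  ![(1, 0, 0), (0, 1, 0), (0, 1, 0), (1, 0, 0), (1, 0, 0), (0, 1, 0), (0, 1, 0), (1, 0, 0),
    (0, 1, 0), (1, 0, 0), (0, 1, 0)]

theorem ops_c (M : Machine) (j : Fin 11) : (M.ops j).c = opC j := by
  fin_cases j <;> rfl

theorem ops_sg (M : Machine) (j : Fin 11) : (M.ops j).sg = qv (opS j) := by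
  fin_cases j <;> simp [ops, opS, qv]

theorem exists_rawterms : ∃ R : Desc × List ℕ → List RawTerm, Primrec R ∧
    ∀ (M : Machine) (w : List M.S), Describes (R (M.descr, Machine.word w)) (M.vel w) := by
  obtain ⟨Rin, hRin, hin⟩ := exists_inTerms
  obtain ⟨rh, hrh, hh⟩ := exists_rhalt
  obtain ⟨Rdet, hRdet, hdet⟩ := exists_detTerms rh hrh hh
  choose rt hrt hrt' using exists_rtab
  choose Rop hRop hop using fun j : Fin 11 => exists_opTerms (j + 1) (opC j) (opS j) (rt j) (hrt j)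
  have hfl := primrec_flatMap_fixed (List.finRange 11) Rop hRop
  set Rops : Desc → List RawTerm := fun D => (List.finRange 11).flatMap fun j => Rop j D with hRops
  refine ⟨fun p => Rin p ++ (Rdet p.1 ++ Rops p.1), by fun_prop, fun M w => ?_⟩
  have h1 := Describes.flatMap (List.finRange 11) (fun j => Rop j M.descr) _
    (fun j => hop j M (M.ops j) (ops_c M j) (ops_sg M j) (hrt' j M))
  have h2 := (hin M w).append ((hdet M).append h1)
  convert h2 using 3 with t x
  unfold vel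
  congr 1

/-! ### the explicit formula for the mixed derivatives of the force -/

/-- the first part of the contribution of a raw term -/
noncomputable def partX (τ : RawTerm) (a b0 b1 b2 i : ℕ) (t x0 x1 x2 : ℝ) : ℝ :=
  (if τ.1 = i then qv τ.2.1 else 0) * (sg (a + 2) (targ τ.2.2.1 t) *
    (Atom.der b0 τ.2.2.2.1 x0 * Atom.der b1 τ.2.2.2.2.1 x1 * Atom.der b2 τ.2.2.2.2.2 x2))

/-- the second part (the Laplacian) of the contribution of a raw term -/
noncomputable def partY (τ : RawTerm) (a b0 b1 b2 i : ℕ) (t x0 x1 x2 : ℝ) : ℝ :=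
  (if τ.1 = i then qv τ.2.1 else 0) * (sg (a + 1) (targ τ.2.2.1 t) *
    (Atom.der (b0 + 2) τ.2.2.2.1 x0 * Atom.der b1 τ.2.2.2.2.1 x1 * Atom.der b2 τ.2.2.2.2.2 x2
     + Atom.der b0 τ.2.2.2.1 x0 * Atom.der (b1 + 2) τ.2.2.2.2.1 x1 * Atom.der b2 τ.2.2.2.2.2 x2
     + Atom.der b0 τ.2.2.2.1 x0 * Atom.der b1 τ.2.2.2.2.1 x1 * Atom.der (b2 + 2) τ.2.2.2.2.2 x2))

theorem Atom.fn_contDiff {P : Atom} (h : P.OK) : ContDiff ℝ ∞ P.fn := atomFn_contDiff _ _ _ _ h

theorem Atom.fn_deriv {P : Atom} (h : P.OK) (n : ℕ) (u : ℝ) : deriv^[n] P.fn u = Atom.der n P u :=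
  atomFn_deriv _ _ _ _ h n u

theorem mixed_force_formula (L : List RawTerm) (u : ℝ → V3 → V3) (hL : Describes L u)
    (hsm : ContDiff ℝ ∞ (fun p : ℝ × V3 => u p.1 p.2)) (ν : ℝ) (a : ℕ) (b : Fin 3 → ℕ) (i : Fin 3)
    (t : ℝ) (x : V3) :
    mixed a b (fun p => forceOf ν u p.1 p.2 i) (t, x) =
      (L.map fun τ => partX τ a (b 0) (b 1) (b 2) i t (x 0) (x 1) (x 2)).sum
      - ν * (L.map fun τ => partY τ a (b 0) (b 1) (b 2) i t (x 0) (x 1) (x 2)).sum := by
  rw [mixed_force_of_sep L (fun τ => τ.cf i) (fun τ => timeFn τ.2.2.1) (fun τ c => (τ.atom c).fn)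
    (fun τ _ => timeFn_contDiff _) (fun τ hτ c => Atom.fn_contDiff (hL.1 τ hτ c)) ν u i hsm
    (fun t x => hL.2 t x i) a b t x]
  congr 2
  · apply List.map_congr_left
    intro τ hτ
    have h := hL.1 τ hτ
    simp only [sep, timeFn_deriv, Atom.fn_deriv (h _), partX, RawTerm.cf]
    rfl
  · congr 1
    apply List.map_congr_left
    intro τ hτ
    have h := hL.1 τ hτ
    simp only [sep, timeFn_deriv, Atom.fn_deriv (h _), partY, RawTerm.cf, Fin.sum_univ_three]
    simp [RawTerm.atom]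
    ring_nf

/-! ### primitive recursive approximability -/

/-- queries: orders, component, rational point, accuracy -/
abbrev Query := ℕ × (ℕ × ℕ × ℕ) × ℕ × QD × (QD × QD × QD) × QD

local instance instPrimcodableQuery : Primcodable Query := inferInstance
local instance instPrimcodableRawTerm : Primcodable RawTerm := inferInstance
local instance instPrimcodableDescWord : Primcodable (Desc × List ℕ) := inferInstance

theorem cfq_QF : QF (fun p : Query × RawTerm => if p.2.1 = p.1.2.2.1 then qv p.2.2.1 else 0) := by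
  have h := QF.ite (c := fun p : Query × RawTerm => decide (p.2.1 = p.1.2.2.1)) (by fun_prop)
    (QF.of_qd (g := fun p : Query × RawTerm => p.2.2.1) (by fun_prop))
    (QF.natCast (f := fun _ : Query × RawTerm => 0) (by fun_prop))
  refine h.of_eq fun p => ?_
  simp

theorem partX_PR : PR (fun p : Query × RawTerm =>
    partX p.2 p.1.1 p.1.2.1.1 p.1.2.1.2.1 p.1.2.1.2.2 p.1.2.2.1 (qv p.1.2.2.2.1)
      (qv p.1.2.2.2.2.1.1) (qv p.1.2.2.2.2.1.2.1) (qv p.1.2.2.2.2.1.2.2)) := by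
  unfold partX
  refine cfq_QF.toPR.mul (PR.mul ?_ ((PR.mul ?_ ?_).mul ?_))
  · exact timeD_PR.comp (f := fun p : Query × RawTerm => (p.1.1 + 2, p.2.2.2.1, p.1.2.2.2.1))
      (by fun_prop)
  · exact atomD_PR.comp (f := fun p : Query × RawTerm =>
      (p.1.2.1.1, p.2.2.2.2.1, p.1.2.2.2.2.1.1)) (by fun_prop)
  · exact atomD_PR.comp (f := fun p : Query × RawTerm =>
      (p.1.2.1.2.1, p.2.2.2.2.2.1, p.1.2.2.2.2.1.2.1)) (by fun_prop)
  · exact atomD_PR.comp (f := fun p : Query × RawTerm =>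
      (p.1.2.1.2.2, p.2.2.2.2.2.2, p.1.2.2.2.2.1.2.2)) (by fun_prop)

theorem partY_PR : PR (fun p : Query × RawTerm =>
    partY p.2 p.1.1 p.1.2.1.1 p.1.2.1.2.1 p.1.2.1.2.2 p.1.2.2.1 (qv p.1.2.2.2.1)
      (qv p.1.2.2.2.2.1.1) (qv p.1.2.2.2.2.1.2.1) (qv p.1.2.2.2.2.1.2.2)) := by
  unfold partY
  have A0 : ∀ k : ℕ, PR (fun p : Query × RawTerm =>
      Atom.der (p.1.2.1.1 + k) p.2.2.2.2.1 (qv p.1.2.2.2.2.1.1)) := fun k =>
    atomD_PR.comp (f := fun p : Query × RawTerm =>
      (p.1.2.1.1 + k, p.2.2.2.2.1, p.1.2.2.2.2.1.1)) (by fun_prop)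
  have A1 : ∀ k : ℕ, PR (fun p : Query × RawTerm =>
      Atom.der (p.1.2.1.2.1 + k) p.2.2.2.2.2.1 (qv p.1.2.2.2.2.1.2.1)) := fun k =>
    atomD_PR.comp (f := fun p : Query × RawTerm =>
      (p.1.2.1.2.1 + k, p.2.2.2.2.2.1, p.1.2.2.2.2.1.2.1)) (by fun_prop)
  have A2 : ∀ k : ℕ, PR (fun p : Query × RawTerm =>
      Atom.der (p.1.2.1.2.2 + k) p.2.2.2.2.2.2 (qv p.1.2.2.2.2.1.2.2)) := fun k =>
    atomD_PR.comp (f := fun p : Query × RawTerm =>
      (p.1.2.1.2.2 + k, p.2.2.2.2.2.2, p.1.2.2.2.2.1.2.2)) (by fun_prop)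
  refine cfq_QF.toPR.mul (PR.mul ?_ ?_)
  · exact timeD_PR.comp (f := fun p : Query × RawTerm => (p.1.1 + 1, p.2.2.2.1, p.1.2.2.2.1))
      (by fun_prop)
  · exact ((((A0 2).mul (A1 0)).mul (A2 0)).add (((A0 0).mul (A1 2)).mul (A2 0))).add
      (((A0 0).mul (A1 0)).mul (A2 2))

theorem one_div_le_qv (e : QD) (he : 0 < qv e) : 1 / ((e.2.2 : ℝ) + 1) ≤ qv e := by
  unfold qv at *
  have hc : (0 : ℝ) < (e.2.2 : ℝ) + 1 := by positivity
  have h1 : (0 : ℝ) < (e.1 : ℝ) - (e.2.1 : ℝ) := by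
    by_contra h
    push Not at h
    have := div_nonpos_of_nonpos_of_nonneg h hc.le
    linarith
  have h2 : e.2.1 < e.1 := by
    have : (e.2.1 : ℝ) < (e.1 : ℝ) := by linarith
    exact_mod_cast this
  have h3 : (e.2.1 : ℝ) + 1 ≤ (e.1 : ℝ) := by exact_mod_cast h2
  apply div_le_div_of_nonneg_right _ hc.le
  linarith

/-- **The force compiler.** -/
theorem exists_force_compiler (ν : ℝ) (hν : CompReal ν) :
    ∃ comp : Desc × List ℕ → Nat.Partrec.Code, Computable comp ∧
      ∀ (M : Machine) (w : List M.S),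
        IsProgramFor (comp (M.descr, Machine.word w)) (M.force ν w) := by
  obtain ⟨R, hR, hdesc⟩ := exists_rawterms
  have hX := PR.list_sum (α := (Desc × List ℕ) × Query) (β := RawTerm)
    (partX_PR.comp (f := fun p : ((Desc × List ℕ) × Query) × RawTerm => (p.1.2, p.2)) (by fun_prop))
    (l := fun q => R q.1) (by fun_prop)
  have hY := PR.list_sum (α := (Desc × List ℕ) × Query) (β := RawTerm)
    (partY_PR.comp (f := fun p : ((Desc × List ℕ) × Query) × RawTerm => (p.1.2, p.2)) (by fun_prop))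
    (l := fun q => R q.1) (by fun_prop)
  obtain ⟨comp, hcomp, h⟩ := exists_compiler hX hY hν
    (fun q : Query => q.2.2.2.2.2.2.2) (by fun_prop)
  refine ⟨comp, hcomp, fun M w a b i t x e he => ?_⟩
  obtain ⟨r, hr, hr'⟩ := h (M.descr, Machine.word w)
    (a, (b 0, b 1, b 2), (i : ℕ), t, (x 0, x 1, x 2), e)
  refine ⟨r, hr, le_trans ?_ (one_div_le_qv e he)⟩
  have hf := mixed_force_formula _ _ (hdesc M w) (Machine.vel_contDiff w) ν a b i (qv t)
    (fun j => qv (x j))
  have hfe : (fun p : ℝ × V3 => M.force ν w p.1 p.2 i) = fun p => forceOf ν (M.vel w) p.1 p.2 i := rfl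
  rw [hfe, hf]
  exact hr'

end Vale.Agent.Lib.P113
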