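import Mathlib

/-!
# P113 effectivity: `fun_prop` set-up for `Primrec`

After this file `fun_prop` proves `Primrec f` for functions `f` built from the registered
combinators (no pattern matching: use `Sum.elim`, `Option.elim`, `cond`, `Nat.rec`, `List.foldr` ...).
-/

namespace Vale.Agent.Lib.P113

attribute [fun_prop] Primrec

section
variable {α β γ σ : Type*} [Primcodable α] [Primcodable β] [Primcodable γ] [Primcodable σ]

@[fun_prop] theorem pr_id : Primrec (fun x : α => x) := Primrec.id
@[fun_prop] theorem pr_const (b : β) : Primrec (fun _ : α => b) := Primrec.const b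
@[fun_prop] theorem pr_comp {f : β → γ} {g : α → β} (hf : Primrec f) (hg : Primrec g) :
    Primrec (fun x => f (g x)) := hf.comp hg
@[fun_prop] theorem pr_pair {f : α → β} {g : α → γ} (hf : Primrec f) (hg : Primrec g) :
    Primrec (fun x => (f x, g x)) := hf.pair hg
@[fun_prop] theorem pr_fst {f : α → β × γ} (hf : Primrec f) : Primrec (fun x => (f x).1) :=
  Primrec.fst.comp hf
@[fun_prop] theorem pr_snd {f : α → β × γ} (hf : Primrec f) : Primrec (fun x => (f x).2) :=
  Primrec.snd.comp hf

/-! ### natural numbers -/

@[fun_prop] theorem pr_succ {f : α → ℕ} (hf : Primrec f) : Primrec (fun x => Nat.succ (f x)) :=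
  Primrec.succ.comp hf
@[fun_prop] theorem pr_pred {f : α → ℕ} (hf : Primrec f) : Primrec (fun x => Nat.pred (f x)) :=
  Primrec.pred.comp hf
@[fun_prop] theorem pr_add {f g : α → ℕ} (hf : Primrec f) (hg : Primrec g) :
    Primrec (fun x => f x + g x) := Primrec.nat_add.comp hf hg
@[fun_prop] theorem pr_mul {f g : α → ℕ} (hf : Primrec f) (hg : Primrec g) :
    Primrec (fun x => f x * g x) := Primrec.nat_mul.comp hf hg
@[fun_prop] theorem pr_sub {f g : α → ℕ} (hf : Primrec f) (hg : Primrec g) :
    Primrec (fun x => f x - g x) := Primrec.nat_sub.comp hf hg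
@[fun_prop] theorem pr_div {f g : α → ℕ} (hf : Primrec f) (hg : Primrec g) :
    Primrec (fun x => f x / g x) := Primrec.nat_div.comp hf hg
@[fun_prop] theorem pr_mod {f g : α → ℕ} (hf : Primrec f) (hg : Primrec g) :
    Primrec (fun x => f x % g x) := Primrec.nat_mod.comp hf hg
@[fun_prop] theorem pr_min {f g : α → ℕ} (hf : Primrec f) (hg : Primrec g) :
    Primrec (fun x => min (f x) (g x)) := Primrec.nat_min.comp hf hg
@[fun_prop] theorem pr_max {f g : α → ℕ} (hf : Primrec f) (hg : Primrec g) :
    Primrec (fun x => max (f x) (g x)) := Primrec.nat_max.comp hf hg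
@[fun_prop] theorem pr_pow {f g : α → ℕ} (hf : Primrec f) (hg : Primrec g) :
    Primrec (fun x => f x ^ g x) :=
  (Primrec₂.unpaired'.1 Nat.Primrec.pow).comp hf hg
@[fun_prop] theorem pr_natPair {f g : α → ℕ} (hf : Primrec f) (hg : Primrec g) :
    Primrec (fun x => Nat.pair (f x) (g x)) := Primrec₂.natPair.comp hf hg
@[fun_prop] theorem pr_unpair {f : α → ℕ} (hf : Primrec f) : Primrec (fun x => Nat.unpair (f x)) :=
  Primrec.unpair.comp hf

/-- primitive recursion; the step function is uncurried -/
@[fun_prop] theorem pr_nat_rec {f : α → ℕ} {g : α → β} {h : α → ℕ → β → β} (hf : Primrec f)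
    (hg : Primrec g) (hh : Primrec (fun p : α × ℕ × β => h p.1 p.2.1 p.2.2)) :
    Primrec (fun a => Nat.rec (motive := fun _ => β) (g a) (h a) (f a)) :=
  Primrec.nat_rec' (h := fun a p => h a p.1 p.2) hf hg hh

@[fun_prop] theorem pr_nat_casesOn {f : α → ℕ} {g : α → β} {h : α → ℕ → β} (hf : Primrec f)
    (hg : Primrec g) (hh : Primrec (fun p : α × ℕ => h p.1 p.2)) :
    Primrec (fun a => Nat.casesOn (motive := fun _ => β) (f a) (g a) (h a)) :=
  Primrec.nat_casesOn hf hg hh

@[fun_prop] theorem pr_iterate {f : α → ℕ} {g : α → β} {h : α → β → β} (hf : Primrec f)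
    (hg : Primrec g) (hh : Primrec (fun p : α × β => h p.1 p.2)) :
    Primrec (fun a => (h a)^[f a] (g a)) := Primrec.nat_iterate hf hg hh

/-! ### booleans and decisions -/

@[fun_prop] theorem pr_cond {c : α → Bool} {f g : α → σ} (hc : Primrec c) (hf : Primrec f)
    (hg : Primrec g) : Primrec (fun a => cond (c a) (f a) (g a)) := Primrec.cond hc hf hg
@[fun_prop] theorem pr_ite_bool {c : α → Bool} {f g : α → σ} (hc : Primrec c) (hf : Primrec f)
    (hg : Primrec g) : Primrec (fun a => if c a = true then f a else g a) :=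
  (Primrec.cond hc hf hg).of_eq fun a => by cases c a <;> rfl
@[fun_prop] theorem pr_not {f : α → Bool} (hf : Primrec f) : Primrec (fun x => !(f x)) :=
  Primrec.not.comp hf
@[fun_prop] theorem pr_and {f g : α → Bool} (hf : Primrec f) (hg : Primrec g) :
    Primrec (fun x => f x && g x) := Primrec.and.comp hf hg
@[fun_prop] theorem pr_or {f g : α → Bool} (hf : Primrec f) (hg : Primrec g) :
    Primrec (fun x => f x || g x) := Primrec.or.comp hf hg
@[fun_prop] theorem pr_decide_le {f g : α → ℕ} (hf : Primrec f) (hg : Primrec g) :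
    Primrec (fun x => decide (f x ≤ g x)) := (Primrec.nat_le.comp hf hg).decide
@[fun_prop] theorem pr_decide_lt {f g : α → ℕ} (hf : Primrec f) (hg : Primrec g) :
    Primrec (fun x => decide (f x < g x)) := (Primrec.nat_lt.comp hf hg).decide
@[fun_prop] theorem pr_decide_eq [DecidableEq β] {f g : α → β} (hf : Primrec f) (hg : Primrec g) :
    Primrec (fun x => decide (f x = g x)) := (Primrec.eq.comp hf hg).decide
@[fun_prop] theorem pr_beq [DecidableEq β] {f g : α → β} (hf : Primrec f) (hg : Primrec g) :
    Primrec (fun x => f x == g x) := Primrec.beq.comp hf hg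

/-! ### options and sums -/

@[fun_prop] theorem pr_some {f : α → β} (hf : Primrec f) : Primrec (fun x => some (f x)) :=
  Primrec.option_some.comp hf
@[fun_prop] theorem pr_option_elim {o : α → Option β} {f : α → σ} {g : α → β → σ} (ho : Primrec o)
    (hf : Primrec f) (hg : Primrec (fun p : α × β => g p.1 p.2)) :
    Primrec (fun a => (o a).elim (f a) (g a)) :=
  (Primrec.option_casesOn ho hf (g := g) hg).of_eq fun a => by cases o a <;> rfl
@[fun_prop] theorem pr_option_bind {f : α → Option β} {g : α → β → Option σ} (hf : Primrec f)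
    (hg : Primrec (fun p : α × β => g p.1 p.2)) : Primrec (fun a => (f a).bind (g a)) :=
  Primrec.option_bind hf hg
@[fun_prop] theorem pr_option_map {f : α → Option β} {g : α → β → σ} (hf : Primrec f)
    (hg : Primrec (fun p : α × β => g p.1 p.2)) : Primrec (fun a => (f a).map (g a)) :=
  Primrec.option_map hf hg
@[fun_prop] theorem pr_option_getD {f : α → Option β} {g : α → β} (hf : Primrec f)
    (hg : Primrec g) : Primrec (fun a => (f a).getD (g a)) := Primrec.option_getD.comp hf hg
@[fun_prop] theorem pr_option_isSome {f : α → Option β} (hf : Primrec f) :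
    Primrec (fun a => (f a).isSome) := Primrec.option_isSome.comp hf
@[fun_prop] theorem pr_option_toList {f : α → Option β} (hf : Primrec f) :
    Primrec (fun a => (f a).toList) := Primrec.optionToList.comp hf
@[fun_prop] theorem pr_inl {f : α → β} (hf : Primrec f) :
    Primrec (fun x => (Sum.inl (f x) : β ⊕ γ)) := Primrec.sumInl.comp hf
@[fun_prop] theorem pr_inr {f : α → γ} (hf : Primrec f) :
    Primrec (fun x => (Sum.inr (f x) : β ⊕ γ)) := Primrec.sumInr.comp hf
@[fun_prop] theorem pr_sum_elim {f : α → β ⊕ γ} {g : α → β → σ} {h : α → γ → σ} (hf : Primrec f)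
    (hg : Primrec (fun p : α × β => g p.1 p.2)) (hh : Primrec (fun p : α × γ => h p.1 p.2)) :
    Primrec (fun a => Sum.elim (g a) (h a) (f a)) :=
  (Primrec.sumCasesOn hf (g := g) (h := h) hg hh).of_eq fun a => by cases f a <;> rfl

/-! ### encodings -/

@[fun_prop] theorem pr_encode {f : α → β} (hf : Primrec f) :
    Primrec (fun x => Encodable.encode (f x)) := Primrec.encode.comp hf
@[fun_prop] theorem pr_decode {f : α → ℕ} (hf : Primrec f) :
    Primrec (fun x => (Encodable.decode (f x) : Option β)) := Primrec.decode.comp hf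

/-! ### lists -/

@[fun_prop] theorem pr_cons {f : α → β} {l : α → List β} (hf : Primrec f) (hl : Primrec l) :
    Primrec (fun x => f x :: l x) := Primrec.list_cons.comp hf hl
@[fun_prop] theorem pr_append {l l' : α → List β} (hl : Primrec l) (hl' : Primrec l') :
    Primrec (fun x => l x ++ l' x) := Primrec.list_append.comp hl hl'
@[fun_prop] theorem pr_list_map {f : α → β → γ} {l : α → List β}
    (hf : Primrec (fun p : α × β => f p.1 p.2)) (hl : Primrec l) :
    Primrec (fun x => (l x).map (f x)) := Primrec.list_map hl hf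
@[fun_prop] theorem pr_list_flatMap {f : α → β → List γ} {l : α → List β}
    (hf : Primrec (fun p : α × β => f p.1 p.2)) (hl : Primrec l) :
    Primrec (fun x => (l x).flatMap (f x)) := Primrec.list_flatMap hl hf
@[fun_prop] theorem pr_list_filterMap {f : α → β → Option γ} {l : α → List β}
    (hf : Primrec (fun p : α × β => f p.1 p.2)) (hl : Primrec l) :
    Primrec (fun x => (l x).filterMap (f x)) := Primrec.listFilterMap hl hf
@[fun_prop] theorem pr_list_foldr {f : α → β → σ → σ} {l : α → List β} {g : α → σ}
    (hf : Primrec (fun p : α × β × σ => f p.1 p.2.1 p.2.2)) (hg : Primrec g) (hl : Primrec l) :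
    Primrec (fun x => (l x).foldr (f x) (g x)) :=
  Primrec.list_foldr (h := fun a p => f a p.1 p.2) hl hg hf
@[fun_prop] theorem pr_list_foldl {f : α → σ → β → σ} {l : α → List β} {g : α → σ}
    (hf : Primrec (fun p : α × σ × β => f p.1 p.2.1 p.2.2)) (hg : Primrec g) (hl : Primrec l) :
    Primrec (fun x => (l x).foldl (f x) (g x)) :=
  Primrec.list_foldl (h := fun a p => f a p.1 p.2) hl hg hf
@[fun_prop] theorem pr_list_range {f : α → ℕ} (hf : Primrec f) :
    Primrec (fun x => List.range (f x)) := Primrec.list_range.comp hf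
@[fun_prop] theorem pr_list_length {l : α → List β} (hl : Primrec l) :
    Primrec (fun x => (l x).length) := Primrec.list_length.comp hl
@[fun_prop] theorem pr_list_reverse {l : α → List β} (hl : Primrec l) :
    Primrec (fun x => (l x).reverse) := Primrec.list_reverse.comp hl
@[fun_prop] theorem pr_list_tail {l : α → List β} (hl : Primrec l) :
    Primrec (fun x => (l x).tail) := Primrec.list_tail.comp hl
@[fun_prop] theorem pr_list_head? {l : α → List β} (hl : Primrec l) :
    Primrec (fun x => (l x).head?) := Primrec.list_head?.comp hl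
@[fun_prop] theorem pr_list_headD {l : α → List β} {d : α → β} (hl : Primrec l) (hd : Primrec d) :
    Primrec (fun x => (l x).headD (d x)) :=
  (Primrec.option_getD.comp (Primrec.list_head?.comp hl) hd).of_eq fun a => by
    cases l a <;> rfl
@[fun_prop] theorem pr_list_getElem? {l : α → List β} {n : α → ℕ} (hl : Primrec l)
    (hn : Primrec n) : Primrec (fun x => (l x)[n x]?) := Primrec.list_getElem?.comp hl hn
@[fun_prop] theorem pr_list_getD {l : α → List β} {n : α → ℕ} {d : α → β} (hl : Primrec l)
    (hn : Primrec n) (hd : Primrec d) : Primrec (fun x => (l x).getD (n x) (d x)) :=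
  (Primrec.option_getD.comp (Primrec.list_getElem?.comp hl hn) hd).of_eq fun a => by
    simp [List.getD]
@[fun_prop] theorem pr_list_flatten {l : α → List (List β)} (hl : Primrec l) :
    Primrec (fun x => (l x).flatten) := Primrec.list_flatten.comp hl
@[fun_prop] theorem pr_list_drop {l : α → List β} {n : α → ℕ} (hn : Primrec n) (hl : Primrec l) :
    Primrec (fun x => (l x).drop (n x)) := Primrec.list_drop.comp hn hl
@[fun_prop] theorem pr_list_take {l : α → List β} {n : α → ℕ} (hn : Primrec n) (hl : Primrec l) :
    Primrec (fun x => (l x).take (n x)) := Primrec.list_take.comp hn hl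
@[fun_prop] theorem pr_list_product {l : α → List β} {l' : α → List γ} (hl : Primrec l)
    (hl' : Primrec l') : Primrec (fun x => (l x) ×ˢ (l' x)) := by
  have : Primrec (fun x => (l x).flatMap fun b => (l' x).map fun c => (b, c)) := by fun_prop
  exact this
@[fun_prop] theorem pr_list_sum_nat {l : α → List ℕ} (hl : Primrec l) :
    Primrec (fun x => (l x).sum) := by
  have : Primrec (fun x => (l x).foldr (fun a b => a + b) 0) := by fun_prop
  exact this

end

end Vale.Agent.Lib.P113
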