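import Vale.Agent.Lib.P113.Eff.Defs
import Vale.Agent.Lib.P113.Eff.FP
import Vale.Agent.Lib.P113.NS

/-!
# P113 effectivity: shared auxiliary definitions (FROZEN interface, do not edit)
-/

namespace Vale.Agent.Lib.P113

open scoped ContDiff

/-! ### rational-valued and primitive recursively approximable real functions -/

/-- `F` takes rational values, computed by a primitive recursive function -/
def QF {α : Type*} [Primcodable α] (F : α → ℝ) : Prop :=
  ∃ g : α → QD, Primrec g ∧ ∀ a, F a = qv (g a)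

/-- `F` is approximated within `1/(n+1)` by a primitive recursive rational-valued function -/
def PR {α : Type*} [Primcodable α] (F : α → ℝ) : Prop :=
  ∃ g : α × ℕ → QD, Primrec g ∧ ∀ a (n : ℕ), |F a - qv (g (a, n))| ≤ 1 / ((n : ℝ) + 1)

/-! ### one-dimensional profiles -/

/-- the `n`-th derivative of the smooth step -/
noncomputable def sg (n : ℕ) (y : ℝ) : ℝ := deriv^[n] stp y

/-- the argument of the time profile number `s` -/
noncomputable def targ (s : ℕ) (t : ℝ) : ℝ :=
  if s = 0 then t else if s = 1 then t - 1 else 14 * Int.fract ((t - 2 - ((s - 2 : ℕ) : ℝ)) / 14)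

/-- time profile number `s`: `pls t`, `pls (t - 1)`, `pulse 0 t`, `pulse 1 t`, ... -/
noncomputable def timeFn (s : ℕ) (t : ℝ) : ℝ := pls (targ s t)

/-- space profile: a block indicator times an affine function -/
noncomputable def atomFn (k3 nm al ga : ℝ) (u : ℝ) : ℝ :=
  plat (k3 * cfr u - nm) * (al * cfr u + ga)

/-- admissible parameters: constants, or blocks well inside the period -/
def AtomOK (k3 nm al : ℝ) : Prop := (k3 = 0 ∧ nm = 0 ∧ al = 0) ∨ (8 ≤ k3 ∧ 0 ≤ nm ∧ nm ≤ k3 / 2)

/-- `n`-th derivative of `y ↦ plat (k3 * y - nm)` -/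
noncomputable def platD (n : ℕ) (k3 nm y : ℝ) : ℝ :=
  (4 * k3) ^ n * (sg n (4 * (k3 * y - nm) + 1) - sg n (4 * (k3 * y - nm) - 2))

/-- the `n`-th derivative of `atomFn` (for admissible parameters) -/
noncomputable def atomD (n : ℕ) (k3 nm al ga : ℝ) (u : ℝ) : ℝ :=
  platD n k3 nm (cfr u) * (al * cfr u + ga) + (n : ℝ) * platD (n - 1) k3 nm (cfr u) * al

/-- separable functions of `(t, x)` -/
noncomputable def sep (T : ℝ → ℝ) (A : Fin 3 → ℝ → ℝ) (p : ℝ × V3) : ℝ :=
  T p.1 * (A 0 (p.2 0) * A 1 (p.2 1) * A 2 (p.2 2))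

/-! ### raw terms -/

/-- parameters `(k3, nm, al, ga)` of a space profile -/
abbrev Atom := QD × QD × QD × QD

/-- the constant profile `1` -/
def Atom.one : Atom := ((0, 0, 0), (0, 0, 0), (0, 0, 0), (1, 0, 0))

noncomputable def Atom.fn (P : Atom) : ℝ → ℝ := atomFn (qv P.1) (qv P.2.1) (qv P.2.2.1) (qv P.2.2.2)

noncomputable def Atom.der (n : ℕ) (P : Atom) : ℝ → ℝ :=
  atomD n (qv P.1) (qv P.2.1) (qv P.2.2.1) (qv P.2.2.2)

def Atom.OK (P : Atom) : Prop := AtomOK (qv P.1) (qv P.2.1) (qv P.2.2.1)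

/-- a raw term `(component, coefficient, time profile, atoms for x 0, x 1, x 2)` -/
abbrev RawTerm := ℕ × QD × ℕ × Atom × Atom × Atom

def RawTerm.atom (τ : RawTerm) (c : Fin 3) : Atom := ![τ.2.2.2.1, τ.2.2.2.2.1, τ.2.2.2.2.2] c

def RawTerm.OK (τ : RawTerm) : Prop := ∀ c, (τ.atom c).OK

/-- the coefficient of the term in the component `i` -/
noncomputable def RawTerm.cf (τ : RawTerm) (i : Fin 3) : ℝ := if τ.1 = (i : ℕ) then qv τ.2.1 else 0

/-- the value of the `i`-th component of the vector field described by the raw term -/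
noncomputable def RawTerm.val (τ : RawTerm) (i : Fin 3) (t : ℝ) (x : V3) : ℝ :=
  τ.cf i * sep (timeFn τ.2.2.1) (fun c => (τ.atom c).fn) (t, x)

/-- the list `L` of raw terms describes the vector field `u` -/
def Describes (L : List RawTerm) (u : ℝ → V3 → V3) : Prop :=
  (∀ τ ∈ L, τ.OK) ∧ ∀ t x i, u t x i = (L.map fun τ => τ.val i t x).sum

/-! ### raw symbols -/

/-- symbols of all machines at once -/
abbrev USym := (ℕ ⊕ ((ℕ × Bool) × ℕ)) ⊕ (ℕ × Bool)

abbrev USym3 := USym × USym × USym

/-- raw table entries -/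
abbrev REntry := Option (Bool × List USym × ℕ)

namespace Machine
variable {M : Machine}

/-- forget the bounds -/
def erase (a : M.Sym) : USym :=
  Sum.map (Sum.map (fun s : M.S => (s : ℕ))
      (Prod.map (Prod.map (fun q : M.Q => (q : ℕ)) id) (fun s : M.S => (s : ℕ))))
    (Prod.map (fun q : M.Q => (q : ℕ)) id) a

def erase3 (π : M.Sym3) : USym3 := (erase π.1, erase π.2.1, erase π.2.2)

def eraseE (e : M.Entry) : REntry := e.map fun p => (p.1, p.2.1.map erase, p.2.2)

end Machine

end Vale.Agent.Lib.P113
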