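import Vale.Agent.Lib.P113.Field

/-!
# P113: effective forces and force compilers (definitions only)

Rational numbers are presented by triples of natural numbers, programs are the codes of partial
recursive functions of Mathlib (`Nat.Partrec.Code`), algorithms are Mathlib's `Computable` maps.
-/

namespace Vale.Agent.Lib.P113

/-- presentations of rational numbers: `(a, b, c)` stands for `(a - b) / (c + 1)` -/
abbrev QD := ℕ × ℕ × ℕ

/-- the rational number presented by a triple -/
noncomputable def qv (r : QD) : ℝ := ((r.1 : ℝ) - (r.2.1 : ℝ)) / ((r.2.2 : ℝ) + 1)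

/-- a computable real: an algorithm returns rational approximations of any accuracy `1/(n+1)` -/
def CompReal (ν : ℝ) : Prop :=
  ∃ g : ℕ → QD, Computable g ∧ ∀ n : ℕ, |ν - qv (g n)| ≤ 1 / ((n : ℝ) + 1)

/-- finite descriptions of machines: the number of states minus one, the number of symbols minus
one, the table of the halting states, the transition table -/
abbrev Desc := ℕ × ℕ × List Bool × List (List (ℕ × ℕ × Bool))

/-- the description of a machine -/
def Machine.descr (M : Machine) : Desc :=
  (M.nQ, M.nS, List.ofFn M.halt,
    List.ofFn fun q => List.ofFn fun s => (((M.δ q s).1 : ℕ), ((M.δ q s).2.1 : ℕ), (M.δ q s).2.2))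

/-- the description of an input word -/
def Machine.word {M : Machine} (w : List M.S) : List ℕ := w.map fun s => (s : ℕ)

/-- the time derivative of a function of `(t, x)` -/
noncomputable def dT (F : ℝ × V3 → ℝ) (p : ℝ × V3) : ℝ := fderiv ℝ F p (1, 0)

/-- the derivative in the `i`-th space direction of a function of `(t, x)` -/
noncomputable def dX (i : Fin 3) (F : ℝ × V3 → ℝ) (p : ℝ × V3) : ℝ := fderiv ℝ F p (0, ee i)

/-- the mixed derivative `∂ₜ^a ∂₀^(b 0) ∂₁^(b 1) ∂₂^(b 2) F` -/
noncomputable def mixed (a : ℕ) (b : Fin 3 → ℕ) (F : ℝ × V3 → ℝ) : ℝ × V3 → ℝ :=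
  dT^[a] ((dX 0)^[b 0] ((dX 1)^[b 1] ((dX 2)^[b 2] F)))

/-- The program `c` computes the force `f`: on the (code of the) query consisting of the orders
`a, b` of a mixed derivative, a component `i`, a rational point `(t, x)` and a rational accuracy
`e > 0`, it halts and returns (the code of) a rational number within `e` of the value at `(t, x)`
of that mixed derivative of that component of `f`. -/
def IsProgramFor (c : Nat.Partrec.Code) (f : ℝ → V3 → V3) : Prop :=
  ∀ (a : ℕ) (b : Fin 3 → ℕ) (i : Fin 3) (t : QD) (x : Fin 3 → QD) (e : QD), 0 < qv e →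
    ∃ r : QD,
      c.eval (Encodable.encode (a, (b 0, b 1, b 2), (i : ℕ), t, (x 0, x 1, x 2), e))
        = Part.some (Encodable.encode r) ∧
      |mixed a b (fun p => f p.1 p.2 i) (qv t, fun j => qv (x j)) - qv r| ≤ qv e

end Vale.Agent.Lib.P113
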