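import Vale.Agent.Lib.P113.Eff.PRc

/-!
# P113 effectivity, module E4: the smooth step at rational points.  Statement FROZEN.

Route: `exp (-z)` for rational `z ∈ [0,1]` by Taylor sums (`Real.exp_bound`), then
`exp (-q) = exp (-(q / m)) ^ m`, `m = ⌈q⌉ + 1` (`PR.pow`), then for `0 < y < 1`
`stp y = f y / (f y + f (1 - y))`, `f y = exp (-1/y)`, denominator `≥ exp (-2) ≥ 1/8`
(`PR.inv_of_ge`), and `stp y = 0` for `y ≤ 0`, `stp y = 1` for `1 ≤ y` (`PR.ite`, `QF.le_dec`).
-/

namespace Vale.Agent.Lib.P113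

variable {α : Type*} [Primcodable α]

theorem pr_factorial {f : α → ℕ} (hf : Primrec f) : Primrec (fun a => (f a).factorial) := by
  have h : Primrec (fun a => Nat.rec (motive := fun _ => ℕ) 1 (fun n r => (n + 1) * r) (f a)) := by
    fun_prop
  refine h.of_eq fun a => ?_
  generalize f a = n
  induction n with
  | zero => rfl
  | succ n ih => simp only [Nat.factorial_succ]; rw [← ih]

/-- the remainder of the Taylor sum with `n + 2` terms is at most `1 / (n + 1)` -/
theorem exp_taylor_err (x : ℝ) (hx : |x| ≤ 1) (n : ℕ) :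
    |Real.exp x - ∑ m ∈ Finset.range (n + 2), x ^ m / (m.factorial : ℝ)| ≤ 1 / ((n : ℝ) + 1) := by
  have h := Real.exp_bound hx (n := n + 2) (by omega)
  refine h.trans ?_
  have h1 : |x| ^ (n + 2) ≤ 1 := pow_le_one₀ (abs_nonneg x) hx
  have hfac : ((n : ℝ) + 2) * ((n : ℝ) + 1) ≤ ((n + 2).factorial : ℝ) := by
    have : (n + 2) * (n + 1) ≤ (n + 2).factorial := by
      rw [Nat.factorial_succ, Nat.factorial_succ]
      have h0 : 1 ≤ n.factorial := Nat.factorial_pos n
      calc (n + 2) * (n + 1) = (n + 1 + 1) * ((n + 1) * 1) := by ring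
        _ ≤ (n + 1 + 1) * ((n + 1) * n.factorial) :=
          Nat.mul_le_mul_left _ (Nat.mul_le_mul_left _ h0)
    exact_mod_cast this
  have hn : (0 : ℝ) ≤ n := Nat.cast_nonneg n
  have h2 : (((n + 2).succ : ℕ) : ℝ) / (((n + 2).factorial : ℝ) * ((n + 2 : ℕ) : ℝ))
      ≤ 1 / ((n : ℝ) + 1) := by
    rw [div_le_div_iff₀ (by positivity) (by positivity)]
    push_cast
    nlinarith [mul_nonneg hn hn]
  calc |x| ^ (n + 2) * ((((n + 2).succ : ℕ) : ℝ) / (((n + 2).factorial : ℝ) * ((n + 2 : ℕ) : ℝ)))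
      ≤ 1 * ((((n + 2).succ : ℕ) : ℝ) / (((n + 2).factorial : ℝ) * ((n + 2 : ℕ) : ℝ))) := by
        apply mul_le_mul_of_nonneg_right h1; positivity
    _ ≤ 1 / ((n : ℝ) + 1) := by rw [one_mul]; exact h2

/-- `exp` of a small rational-valued function -/
theorem PR.exp_small {Y : α → ℝ} (hY : QF Y) (h1 : ∀ a, |Y a| ≤ 1) :
    PR (fun a => Real.exp (Y a)) := by
  have hterm : QF (fun p : (α × ℕ) × ℕ => Y p.1.1 ^ p.2 / (p.2.factorial : ℝ)) := by
    refine QF.div (QF.pow (hY.comp (f := fun p : (α × ℕ) × ℕ => p.1.1) (by fun_prop))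
      (e := fun p : (α × ℕ) × ℕ => p.2) (by fun_prop)) ?_
    exact QF.natCast (f := fun p : (α × ℕ) × ℕ => p.2.factorial) (pr_factorial (by fun_prop))
  have hsum := QF.list_sum hterm (l := fun p : α × ℕ => List.range (p.2 + 2)) (by fun_prop)
  refine PR.of_approx hsum fun a n => ?_
  have := exp_taylor_err (Y a) (h1 a) n
  rw [Finset.sum_range] at this
  simpa [Finset.sum_range, List.sum_range_succ, Fin.sum_univ_def, List.finRange_eq_pmap_range,
    List.map_pmap] using this

/-- `exp` of a rational-valued function -/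
theorem PR.exp_of_QF {F : α → ℝ} (hF : QF F) : PR (fun a => Real.exp (F a)) := by
  obtain ⟨B, hB, hFB⟩ := hF.bound
  have hden : QF (fun a => ((B a + 1 : ℕ) : ℝ)) := QF.natCast (f := fun a => B a + 1) (by fun_prop)
  have hY : QF (fun a => F a / ((B a + 1 : ℕ) : ℝ)) := hF.div hden
  have hpos : ∀ a, (0 : ℝ) < ((B a + 1 : ℕ) : ℝ) := fun a => by positivity
  have h1 : ∀ a, |F a / ((B a + 1 : ℕ) : ℝ)| ≤ 1 := fun a => by
    rw [abs_div, abs_of_pos (hpos a), div_le_one (hpos a)]
    have := hFB a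
    push_cast
    linarith
  have hp := (PR.exp_small hY h1).pow (e := fun a => B a + 1) (by fun_prop)
  refine hp.of_eq fun a => ?_
  rw [← Real.exp_nat_mul]
  congr 1
  have := (hpos a).ne'
  field_simp

theorem exp_neg_two_ge : (1 : ℝ) / ((7 : ℕ) + 1) ≤ Real.exp (-2) := by
  have h : Real.exp 2 ≤ 8 := by
    have h1 : Real.exp 1 < 2.7182818286 := Real.exp_one_lt_d9
    have h2 : Real.exp 2 = Real.exp 1 * Real.exp 1 := by rw [← Real.exp_add]; norm_num
    have h0 : 0 < Real.exp 1 := Real.exp_pos 1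
    rw [h2]
    nlinarith
  rw [Real.exp_neg]
  have h0 : 0 < Real.exp 2 := Real.exp_pos 2
  rw [one_div]
  apply inv_anti₀ h0
  push_cast
  linarith

theorem stp_PR : PR (fun q : QD => stp (qv q)) := by
  have hy : QF (fun q : QD => qv q) := QF.of_qd (g := fun q : QD => q) (by fun_prop)
  have h0 : QF (fun _ : QD => (0 : ℝ)) := by simpa using QF.const_rat (α := QD) 0
  have h1 : QF (fun _ : QD => (1 : ℝ)) := by simpa using QF.const_rat (α := QD) 1
  obtain ⟨c0, hc0, hc0'⟩ := QF.le_dec hy h0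
  obtain ⟨c1, hc1, hc1'⟩ := QF.le_dec h1 hy
  have hA : PR (fun q : QD => Real.exp (-(qv q)⁻¹)) := PR.exp_of_QF hy.inv.neg
  have hB : PR (fun q : QD => Real.exp (-(1 - qv q)⁻¹)) := PR.exp_of_QF (h1.sub hy).inv.neg
  have hD : PR (fun q : QD => if (c0 q || c1 q) = true then (1 : ℝ)
      else Real.exp (-(qv q)⁻¹) + Real.exp (-(1 - qv q)⁻¹)) :=
    PR.ite (c := fun q => c0 q || c1 q) (by fun_prop) h1.toPR (hA.add hB)
  have hDge : ∀ q : QD, 1 / (((7 : ℕ) : ℝ) + 1) ≤ (if (c0 q || c1 q) = true then (1 : ℝ)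
      else Real.exp (-(qv q)⁻¹) + Real.exp (-(1 - qv q)⁻¹)) := by
    intro q
    split_ifs with h
    · norm_num
    · simp only [Bool.or_eq_true, not_or, hc0', hc1', not_le] at h
      obtain ⟨hq0, hq1⟩ := h
      refine exp_neg_two_ge.trans ?_
      have e1 := Real.exp_pos (-(qv q)⁻¹)
      have e2 := Real.exp_pos (-(1 - qv q)⁻¹)
      rcases le_total (1 / 2) (qv q) with hh | hh
      · have : Real.exp (-2) ≤ Real.exp (-(qv q)⁻¹) := by
          apply Real.exp_le_exp.2
          have : (qv q)⁻¹ ≤ (1 / 2 : ℝ)⁻¹ := inv_anti₀ (by norm_num) hh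
          norm_num at this
          linarith
        linarith
      · have : Real.exp (-2) ≤ Real.exp (-(1 - qv q)⁻¹) := by
          apply Real.exp_le_exp.2
          have : (1 - qv q)⁻¹ ≤ (1 / 2 : ℝ)⁻¹ := inv_anti₀ (by norm_num) (by linarith)
          norm_num at this
          linarith
        linarith
  have hI := hD.inv_of_ge 7 hDge
  have hM := hA.mul hI
  have hR := PR.ite hc0 h0.toPR (PR.ite hc1 h1.toPR hM)
  refine hR.of_eq fun q => ?_
  by_cases a0 : qv q ≤ 0
  · rw [if_pos ((hc0' q).2 a0), stp_zero a0]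
  · have b0 : ¬ c0 q = true := fun h => a0 ((hc0' q).1 h)
    rw [if_neg b0]
    by_cases a1 : 1 ≤ qv q
    · rw [if_pos ((hc1' q).2 a1), stp_one a1]
    · have b1 : ¬ c1 q = true := fun h => a1 ((hc1' q).1 h)
      rw [if_neg b1]
      have b01 : ¬ (c0 q || c1 q) = true := by simp [b0, b1]
      rw [if_neg b01]
      have a1' : ¬ (1 - qv q ≤ 0) := by
        intro h; apply a1; linarith
      show _ = Real.smoothTransition (qv q)
      unfold Real.smoothTransition expNegInvGlue
      rw [if_neg a0, if_neg a1', div_eq_mul_inv]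

end Vale.Agent.Lib.P113
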