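import Vale.Agent.Lib.P113.Eff.QF

/-!
# P113 effectivity, module E3: closure properties of `PR`
(primitive recursively approximable real-valued functions).
-/

namespace Vale.Agent.Lib.P113

variable {α β : Type*} [Primcodable α] [Primcodable β]

theorem PR.of_eq {F G : α → ℝ} (hF : PR F) (h : ∀ a, F a = G a) : PR G := by
  obtain ⟨g, hg, hg'⟩ := hF
  exact ⟨g, hg, fun a n => by rw [← h]; exact hg' a n⟩

/-- an approximation scheme given by a `QF` function -/
theorem PR.of_approx {F : α → ℝ} {G : α × ℕ → ℝ} (hG : QF G)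
    (h : ∀ a (n : ℕ), |F a - G (a, n)| ≤ 1 / ((n : ℝ) + 1)) : PR F := by
  obtain ⟨g, hg, hg'⟩ := hG
  exact ⟨g, hg, fun a n => by rw [← hg']; exact h a n⟩

/-- the approximation scheme of a `PR` function, re-indexed -/
theorem PR.approx {F : α → ℝ} (hF : PR F) : ∃ G : α × ℕ → ℝ, QF G ∧
    ∀ a (n : ℕ), |F a - G (a, n)| ≤ 1 / ((n : ℝ) + 1) := by
  obtain ⟨g, hg, hg'⟩ := hF
  exact ⟨fun p => qv (g p), QF.of_qd hg, hg'⟩

theorem QF.toPR {F : α → ℝ} (hF : QF F) : PR F := by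
  refine PR.of_approx (G := fun p => F p.1) (hF.comp (by fun_prop)) fun a n => ?_
  simp only [sub_self, abs_zero]
  positivity

theorem PR.comp {F : α → ℝ} (hF : PR F) {f : β → α} (hf : Primrec f) : PR (fun b => F (f b)) := by
  obtain ⟨g, hg, hg'⟩ := hF
  exact ⟨fun p => g (f p.1, p.2), by fun_prop, fun b n => hg' _ _⟩

theorem half_add_half (n : ℕ) :
    1 / (((2 * n + 1 : ℕ) : ℝ) + 1) + 1 / (((2 * n + 1 : ℕ) : ℝ) + 1) = 1 / ((n : ℝ) + 1) := by
  push_cast
  have : ((n : ℝ) + 1) ≠ 0 := by positivity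
  field_simp
  ring

/-- effective limits -/
theorem PR.of_limit {F : α → ℝ} {G : α × ℕ → ℝ} (hG : PR G)
    (h : ∀ a (n : ℕ), |F a - G (a, n)| ≤ 1 / ((n : ℝ) + 1)) : PR F := by
  obtain ⟨g, hg, hg'⟩ := hG
  refine ⟨fun p => g ((p.1, 2 * p.2 + 1), 2 * p.2 + 1), by fun_prop, fun a n => ?_⟩
  have h1 := h a (2 * n + 1)
  have h2 := hg' (a, 2 * n + 1) (2 * n + 1)
  have h3 := abs_sub_le (F a) (G (a, 2 * n + 1)) (qv (g ((a, 2 * n + 1), 2 * n + 1)))
  have h4 := half_add_half n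
  simp only
  linarith

/-- a primitive recursive natural upper bound of the absolute value -/
theorem PR.bound {F : α → ℝ} (hF : PR F) : ∃ B : α → ℕ, Primrec B ∧ ∀ a, |F a| ≤ (B a : ℝ) := by
  obtain ⟨g, hg, hg'⟩ := hF
  obtain ⟨B, hB, hB'⟩ := (QF.of_qd (g := fun a : α => g (a, 0)) (by fun_prop)).bound
  refine ⟨fun a => B a + 1, by fun_prop, fun a => ?_⟩
  have h1 := hg' a 0
  have h2 := hB' a
  have h3 := abs_sub_abs_le_abs_sub (F a) (qv (g (a, 0)))
  simp only [Nat.cast_zero, zero_add, div_one] at h1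
  push_cast
  linarith

theorem PR.add {F G : α → ℝ} (hF : PR F) (hG : PR G) : PR (fun a => F a + G a) := by
  obtain ⟨f, hf, hf'⟩ := hF.approx
  obtain ⟨g, hg, hg'⟩ := hG.approx
  refine PR.of_approx (G := fun p => f (p.1, 2 * p.2 + 1) + g (p.1, 2 * p.2 + 1))
    ((hf.comp (by fun_prop)).add (hg.comp (by fun_prop))) fun a n => ?_
  have h1 := hf' a (2 * n + 1)
  have h2 := hg' a (2 * n + 1)
  have h4 := half_add_half n
  have h3 : F a + G a - (f (a, 2 * n + 1) + g (a, 2 * n + 1))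
      = (F a - f (a, 2 * n + 1)) + (G a - g (a, 2 * n + 1)) := by ring
  simp only
  rw [h3]
  have := abs_add_le (F a - f (a, 2 * n + 1)) (G a - g (a, 2 * n + 1))
  linarith

theorem PR.neg {F : α → ℝ} (hF : PR F) : PR (fun a => - F a) := by
  obtain ⟨f, hf, hf'⟩ := hF.approx
  refine PR.of_approx (G := fun p => - f p) hf.neg fun a n => ?_
  have h1 := hf' a n
  have : - F a - - f (a, n) = - (F a - f (a, n)) := by ring
  rw [this, abs_neg]
  exact h1

theorem PR.sub {F G : α → ℝ} (hF : PR F) (hG : PR G) : PR (fun a => F a - G a) :=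
  (hF.add hG.neg).of_eq fun a => by ring

theorem PR.mul {F G : α → ℝ} (hF : PR F) (hG : PR G) : PR (fun a => F a * G a) := by
  obtain ⟨BF, hBF, hBF'⟩ := hF.bound
  obtain ⟨BG, hBG, hBG'⟩ := hG.bound
  obtain ⟨f, hf, hf'⟩ := hF.approx
  obtain ⟨g, hg, hg'⟩ := hG.approx
  refine PR.of_approx
    (G := fun p => f (p.1, 2 * (p.2 + 1) * (BF p.1 + BG p.1 + 1))
      * g (p.1, 2 * (p.2 + 1) * (BF p.1 + BG p.1 + 1)))
    ((hf.comp (by fun_prop)).mul (hg.comp (by fun_prop))) fun a n => ?_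
  simp only
  set m := 2 * (n + 1) * (BF a + BG a + 1) with hm
  set C : ℝ := (BF a : ℝ) + (BG a : ℝ) + 1 with hC
  have hCpos : 0 < C := by positivity
  have hN : (0 : ℝ) < (n : ℝ) + 1 := by positivity
  have hle : 1 / ((m : ℝ) + 1) ≤ 1 / (2 * ((n : ℝ) + 1) * C) := by
    apply one_div_le_one_div_of_le (by positivity)
    rw [hm]
    push_cast
    linarith
  have h1 := (hf' a m).trans hle
  have h2 := (hg' a m).trans hle
  have hsmall : 1 / (2 * ((n : ℝ) + 1) * C) ≤ 1 := by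
    rw [div_le_one (by positivity)]
    have c1 : (1 : ℝ) ≤ C := by
      rw [hC]
      linarith [(Nat.cast_nonneg (BF a) : (0 : ℝ) ≤ BF a), (Nat.cast_nonneg (BG a) : (0 : ℝ) ≤ BG a)]
    have c2 : (1 : ℝ) ≤ (n : ℝ) + 1 := by linarith [(Nat.cast_nonneg n : (0 : ℝ) ≤ n)]
    nlinarith
  have hg1 : |g (a, m)| ≤ (BG a : ℝ) + 1 := by
    have := abs_sub_abs_le_abs_sub (g (a, m)) (G a)
    rw [abs_sub_comm] at this
    linarith [hBG' a]
  have key : F a * G a - f (a, m) * g (a, m)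
      = F a * (G a - g (a, m)) + (F a - f (a, m)) * g (a, m) := by ring
  rw [key]
  have t1 : |F a * (G a - g (a, m))| ≤ (BF a : ℝ) * (1 / (2 * ((n : ℝ) + 1) * C)) := by
    rw [abs_mul]
    exact mul_le_mul (hBF' a) h2 (abs_nonneg _) (Nat.cast_nonneg _)
  have t2 : |(F a - f (a, m)) * g (a, m)| ≤ (1 / (2 * ((n : ℝ) + 1) * C)) * ((BG a : ℝ) + 1) := by
    rw [abs_mul]
    exact mul_le_mul h1 hg1 (abs_nonneg _) (by positivity)
  have t3 := abs_add_le (F a * (G a - g (a, m))) ((F a - f (a, m)) * g (a, m))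
  have t4 : (BF a : ℝ) * (1 / (2 * ((n : ℝ) + 1) * C)) + (1 / (2 * ((n : ℝ) + 1) * C)) * ((BG a : ℝ) + 1)
      = 1 / (2 * ((n : ℝ) + 1)) := by
    have : (BF a : ℝ) + ((BG a : ℝ) + 1) = C := by rw [hC]; ring
    field_simp
    linarith
  have t5 : 1 / (2 * ((n : ℝ) + 1)) ≤ 1 / ((n : ℝ) + 1) := by
    apply one_div_le_one_div_of_le hN
    linarith
  linarith

theorem PR.pow {F : α → ℝ} (hF : PR F) {e : α → ℕ} (he : Primrec e) :
    PR (fun a => F a ^ e a) := by
  obtain ⟨BF, hBF, hBF'⟩ := hF.bound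
  obtain ⟨f, hf, hf'⟩ := hF.approx
  refine PR.of_approx
    (G := fun p => f (p.1, (p.2 + 1) * (e p.1 * (BF p.1 + 1) ^ e p.1)) ^ e p.1)
    ((hf.comp (by fun_prop)).pow (by fun_prop)) fun a n => ?_
  simp only
  set m := (n + 1) * (e a * (BF a + 1) ^ e a) with hm
  set C : ℝ := (BF a : ℝ) + 1 with hC
  have hC1 : (1 : ℝ) ≤ C := by rw [hC]; linarith [(Nat.cast_nonneg (BF a) : (0 : ℝ) ≤ BF a)]
  have hN : (0 : ℝ) < (n : ℝ) + 1 := by positivity
  have h1 := hf' a m
  have hm1 : 1 / ((m : ℝ) + 1) ≤ 1 := by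
    rw [div_le_one (by positivity)]
    linarith [(Nat.cast_nonneg m : (0 : ℝ) ≤ m)]
  have hf1 : |f (a, m)| ≤ C := by
    have := abs_sub_abs_le_abs_sub (f (a, m)) (F a)
    rw [abs_sub_comm] at this
    linarith [hBF' a]
  have hF1 : |F a| ≤ C := by linarith [hBF' a]
  have h2 := abs_pow_sub_pow_le (a := F a) (b := f (a, m)) (n := e a)
  have h3 : max |F a| |f (a, m)| ^ (e a - 1) ≤ C ^ e a := by
    calc max |F a| |f (a, m)| ^ (e a - 1) ≤ C ^ (e a - 1) :=
          pow_le_pow_left₀ (le_max_of_le_left (abs_nonneg _)) (max_le hF1 hf1) _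
      _ ≤ C ^ e a := pow_le_pow_right₀ hC1 (Nat.sub_le _ _)
  have h4 : |F a - f (a, m)| * (e a : ℝ) * max |F a| |f (a, m)| ^ (e a - 1)
      ≤ (1 / ((m : ℝ) + 1)) * (e a : ℝ) * C ^ e a := by
    apply mul_le_mul (mul_le_mul_of_nonneg_right h1 (Nat.cast_nonneg _)) h3
      (by positivity) (by positivity)
  refine h2.trans (h4.trans ?_)
  have hmc : (m : ℝ) = ((n : ℝ) + 1) * ((e a : ℝ) * C ^ e a) := by
    rw [hm, hC]; push_cast; ring
  set D : ℝ := (e a : ℝ) * C ^ e a with hD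
  have hD0 : 0 ≤ D := by positivity
  rw [mul_assoc, ← hD, hmc, div_mul_eq_mul_div, one_mul, div_le_div_iff₀ (by positivity) hN]
  nlinarith

theorem PR.ite {c : α → Bool} (hc : Primrec c) {F G : α → ℝ} (hF : PR F) (hG : PR G) :
    PR (fun a => if c a = true then F a else G a) := by
  obtain ⟨f, hf, hf'⟩ := hF.approx
  obtain ⟨g, hg, hg'⟩ := hG.approx
  refine PR.of_approx (G := fun p => if c p.1 = true then f p else g p)
    (QF.ite (by fun_prop) hf hg) fun a n => ?_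
  simp only
  split_ifs
  · exact hf' a n
  · exact hg' a n

theorem PR.inv_of_ge {F : α → ℝ} (hF : PR F) (c : ℕ) (h : ∀ a, 1 / ((c : ℝ) + 1) ≤ F a) :
    PR (fun a => (F a)⁻¹) := by
  obtain ⟨f, hf, hf'⟩ := hF.approx
  refine PR.of_approx (G := fun p => (f (p.1, 2 * (c + 1) ^ 2 * (p.2 + 1)))⁻¹)
    (hf.comp (by fun_prop)).inv fun a n => ?_
  simp only
  set m := 2 * (c + 1) ^ 2 * (n + 1) with hm
  set d : ℝ := (c : ℝ) + 1 with hd
  have hd1 : (1 : ℝ) ≤ d := by rw [hd]; linarith [(Nat.cast_nonneg c : (0 : ℝ) ≤ c)]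
  have hN : (1 : ℝ) ≤ (n : ℝ) + 1 := by linarith [(Nat.cast_nonneg n : (0 : ℝ) ≤ n)]
  have hle : 1 / ((m : ℝ) + 1) ≤ 1 / (2 * d ^ 2 * ((n : ℝ) + 1)) := by
    apply one_div_le_one_div_of_le (by positivity)
    rw [hm]
    push_cast
    linarith
  have h1 := (hf' a m).trans hle
  have hFa := h a
  have hFpos : 0 < F a := lt_of_lt_of_le (by positivity) hFa
  have h2 : 1 / (2 * d ^ 2 * ((n : ℝ) + 1)) ≤ 1 / (2 * d) := by
    apply one_div_le_one_div_of_le (by positivity)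
    nlinarith
  have hfa : 1 / (2 * d) ≤ f (a, m) := by
    have := (abs_le.1 (h1.trans h2)).2
    have e : 1 / d - 1 / (2 * d) = 1 / (2 * d) := by field_simp; norm_num
    linarith
  have hfpos : 0 < f (a, m) := lt_of_lt_of_le (by positivity) hfa
  have key : (F a)⁻¹ - (f (a, m))⁻¹ = (f (a, m) - F a) / (F a * f (a, m)) := by
    field_simp
  rw [key, abs_div, abs_sub_comm, abs_of_pos (mul_pos hFpos hfpos)]
  have hprod : 1 / (2 * d ^ 2) ≤ F a * f (a, m) := by
    calc 1 / (2 * d ^ 2) = (1 / d) * (1 / (2 * d)) := by field_simp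
      _ ≤ F a * f (a, m) := mul_le_mul hFa hfa (by positivity) hFpos.le
  calc |F a - f (a, m)| / (F a * f (a, m)) ≤ (1 / (2 * d ^ 2 * ((n : ℝ) + 1))) / (1 / (2 * d ^ 2)) :=
        div_le_div₀ (by positivity) h1 (by positivity) hprod
    _ = 1 / ((n : ℝ) + 1) := by field_simp

theorem PR.list_sum {F : α × β → ℝ} (hF : PR F) {l : α → List β} (hl : Primrec l) :
    PR (fun a => ((l a).map fun b => F (a, b)).sum) := by
  obtain ⟨f, hf, hf'⟩ := hF.approx
  have hq : QF (fun p : (α × ℕ) × β => f ((p.1.1, p.2), (p.1.2 + 1) * (l p.1.1).length)) :=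
    hf.comp (by fun_prop)
  refine PR.of_approx (QF.list_sum hq (l := fun p : α × ℕ => l p.1) (by fun_prop)) fun a n => ?_
  simp only
  set m := (n + 1) * (l a).length with hm
  have hN : (0 : ℝ) < (n : ℝ) + 1 := by positivity
  have gen : ∀ t : List β, |(t.map fun b => F (a, b)).sum - (t.map fun b => f ((a, b), m)).sum|
      ≤ (t.length : ℝ) * (1 / ((m : ℝ) + 1)) := by
    intro t
    induction t with
    | nil => simp
    | cons b t ih =>
      simp only [List.map_cons, List.sum_cons, List.length_cons]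
      have h1 := hf' (a, b) m
      have e : F (a, b) + (t.map fun b => F (a, b)).sum
          - (f ((a, b), m) + (t.map fun b => f ((a, b), m)).sum)
          = (F (a, b) - f ((a, b), m))
            + ((t.map fun b => F (a, b)).sum - (t.map fun b => f ((a, b), m)).sum) := by ring
      rw [e]
      have := abs_add_le (F (a, b) - f ((a, b), m))
        ((t.map fun b => F (a, b)).sum - (t.map fun b => f ((a, b), m)).sum)
      push_cast
      linarith
  refine (gen (l a)).trans ?_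
  have hmc : (m : ℝ) = ((n : ℝ) + 1) * ((l a).length : ℝ) := by rw [hm]; push_cast; ring
  have hl0 : (0 : ℝ) ≤ ((l a).length : ℝ) := Nat.cast_nonneg _
  rw [hmc, mul_one_div, div_le_div_iff₀ (by positivity) hN]
  nlinarith

/-- substitution of a rational-valued function in a real argument -/
theorem PR.comp_qf {F : β → ℝ → ℝ} (hF : PR (fun p : β × QD => F p.1 (qv p.2))) {f : α → β}
    (hf : Primrec f) {Y : α → ℝ} (hY : QF Y) : PR (fun a => F (f a) (Y a)) := by
  obtain ⟨y, hy, hy'⟩ := hY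
  refine (hF.comp (f := fun a => (f a, y a)) (by fun_prop)).of_eq fun a => ?_
  simp only [hy']

end Vale.Agent.Lib.P113
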