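import Vale.Agent.Lib.P113.Eff.Sigma

/-!
# P113 effectivity, module E11: the derivatives of the profiles at rational data are `PR`.
Statements FROZEN.  Everything follows from `sg_PR`, `PR.comp_qf` and the closure lemmas.
-/

namespace Vale.Agent.Lib.P113

theorem QF.const_real {α : Type*} [Primcodable α] (q : ℚ) (r : ℝ) (h : (q : ℝ) = r) :
    QF (fun _ : α => r) := h ▸ QF.const_rat q

theorem cfr_QF {α : Type*} [Primcodable α] {F : α → ℝ} (hF : QF F) : QF (fun a => cfr (F a)) := by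
  have h4 : QF (fun _ : α => (1 / 4 : ℝ)) := QF.const_real (1 / 4) _ (by norm_num)
  exact (hF.add h4).fract.sub h4

theorem targ_QF : QF (fun p : ℕ × QD => targ p.1 (qv p.2)) := by
  have ht : QF (fun p : ℕ × QD => qv p.2) := QF.of_qd (g := fun p : ℕ × QD => p.2) (by fun_prop)
  have h1 : QF (fun _ : ℕ × QD => (1 : ℝ)) := QF.const_real 1 _ (by norm_num)
  have h2 : QF (fun _ : ℕ × QD => (2 : ℝ)) := QF.const_real 2 _ (by norm_num)
  have h14 : QF (fun _ : ℕ × QD => (14 : ℝ)) := QF.const_real 14 _ (by norm_num)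
  have hs : QF (fun p : ℕ × QD => ((p.1 - 2 : ℕ) : ℝ)) :=
    QF.natCast (f := fun p : ℕ × QD => p.1 - 2) (by fun_prop)
  have h := QF.ite (c := fun p : ℕ × QD => decide (p.1 = 0)) (by fun_prop) ht
    (QF.ite (c := fun p : ℕ × QD => decide (p.1 = 1)) (by fun_prop) (ht.sub h1)
      (h14.mul (((ht.sub h2).sub hs).div h14).fract))
  refine h.of_eq fun p => ?_
  simp only [decide_eq_true_eq, targ]

/-- `(order, profile number, time)` -/
theorem timeD_PR : PR (fun p : ℕ × ℕ × QD => sg p.1 (targ p.2.1 (qv p.2.2))) :=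
  PR.comp_qf (F := sg) sg_PR (f := fun p : ℕ × ℕ × QD => p.1) (by fun_prop)
    (Y := fun p : ℕ × ℕ × QD => targ p.2.1 (qv p.2.2))
    (targ_QF.comp (f := fun p : ℕ × ℕ × QD => (p.2.1, p.2.2)) (by fun_prop))

theorem platD_PR {α : Type*} [Primcodable α] {n : α → ℕ} (hn : Primrec n) {k3 nm y : α → ℝ}
    (hk : QF k3) (hm : QF nm) (hy : QF y) : PR (fun a => platD (n a) (k3 a) (nm a) (y a)) := by
  have h1 : QF (fun _ : α => (1 : ℝ)) := QF.const_real 1 _ (by norm_num)
  have h2 : QF (fun _ : α => (2 : ℝ)) := QF.const_real 2 _ (by norm_num)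
  have h4 : QF (fun _ : α => (4 : ℝ)) := QF.const_real 4 _ (by norm_num)
  have hz : QF (fun a => 4 * (k3 a * y a - nm a)) := h4.mul ((hk.mul hy).sub hm)
  have hA : PR (fun a => sg (n a) (4 * (k3 a * y a - nm a) + 1)) :=
    PR.comp_qf (F := sg) sg_PR hn (hz.add h1)
  have hB : PR (fun a => sg (n a) (4 * (k3 a * y a - nm a) - 2)) :=
    PR.comp_qf (F := sg) sg_PR hn (hz.sub h2)
  exact (((h4.mul hk).pow hn).toPR).mul (hA.sub hB)

/-- `(order, parameters, point)` -/
theorem atomD_PR : PR (fun p : ℕ × Atom × QD => Atom.der p.1 p.2.1 (qv p.2.2)) := by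
  have hk : QF (fun p : ℕ × Atom × QD => qv p.2.1.1) :=
    QF.of_qd (g := fun p : ℕ × Atom × QD => p.2.1.1) (by fun_prop)
  have hm : QF (fun p : ℕ × Atom × QD => qv p.2.1.2.1) :=
    QF.of_qd (g := fun p : ℕ × Atom × QD => p.2.1.2.1) (by fun_prop)
  have ha : QF (fun p : ℕ × Atom × QD => qv p.2.1.2.2.1) :=
    QF.of_qd (g := fun p : ℕ × Atom × QD => p.2.1.2.2.1) (by fun_prop)
  have hg : QF (fun p : ℕ × Atom × QD => qv p.2.1.2.2.2) :=
    QF.of_qd (g := fun p : ℕ × Atom × QD => p.2.1.2.2.2) (by fun_prop)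
  have hu : QF (fun p : ℕ × Atom × QD => qv p.2.2) :=
    QF.of_qd (g := fun p : ℕ × Atom × QD => p.2.2) (by fun_prop)
  have hc := cfr_QF hu
  have hn : QF (fun p : ℕ × Atom × QD => (p.1 : ℝ)) :=
    QF.natCast (f := fun p : ℕ × Atom × QD => p.1) (by fun_prop)
  have hP := platD_PR (n := fun p : ℕ × Atom × QD => p.1) (by fun_prop) hk hm hc
  have hP' := platD_PR (n := fun p : ℕ × Atom × QD => p.1 - 1) (by fun_prop) hk hm hc
  exact (hP.mul ((ha.mul hc).add hg).toPR).add ((hn.toPR.mul hP').mul ha.toPR)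

end Vale.Agent.Lib.P113
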