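import Vale.Agent.Lib.P113.Eff.Base

/-!
# P113 effectivity, module E2: closure properties of `QF` (rational-valued, primitive recursive)
-/

namespace Vale.Agent.Lib.P113

namespace QD

def add (p q : QD) : QD :=
  (p.1 * (q.2.2 + 1) + q.1 * (p.2.2 + 1), p.2.1 * (q.2.2 + 1) + q.2.1 * (p.2.2 + 1),
    (p.2.2 + 1) * (q.2.2 + 1) - 1)

def neg (p : QD) : QD := (p.2.1, p.1, p.2.2)

def mul (p q : QD) : QD :=
  (p.1 * q.1 + p.2.1 * q.2.1, p.1 * q.2.1 + p.2.1 * q.1, (p.2.2 + 1) * (q.2.2 + 1) - 1)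

def inv (p : QD) : QD :=
  cond (decide (p.2.1 < p.1)) (p.2.2 + 1, 0, p.1 - p.2.1 - 1)
    (cond (decide (p.1 < p.2.1)) (0, p.2.2 + 1, p.2.1 - p.1 - 1) (0, 0, 0))

def le (p q : QD) : Bool :=
  decide (p.1 * (q.2.2 + 1) + q.2.1 * (p.2.2 + 1) ≤ q.1 * (p.2.2 + 1) + p.2.1 * (q.2.2 + 1))

def fract (p : QD) : QD := ((p.1 + p.2.1 * p.2.2) % (p.2.2 + 1), 0, p.2.2)

def pow (p : QD) (n : ℕ) : QD := Nat.rec (motive := fun _ => QD) (1, 0, 0) (fun _ r => mul r p) n

end QD

theorem den_cast (c c' : ℕ) : (((c + 1) * (c' + 1) - 1 : ℕ) : ℝ) + 1 = ((c : ℝ) + 1) * ((c' : ℝ) + 1) := by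
  have h : 1 ≤ (c + 1) * (c' + 1) := Nat.succ_le_of_lt (Nat.mul_pos (Nat.succ_pos _) (Nat.succ_pos _))
  rw [Nat.cast_sub h]
  push_cast
  ring

theorem qv_add (p q : QD) : qv (QD.add p q) = qv p + qv q := by
  unfold qv QD.add
  simp only [den_cast]
  push_cast
  have h1 : ((p.2.2 : ℝ) + 1) ≠ 0 := by positivity
  have h2 : ((q.2.2 : ℝ) + 1) ≠ 0 := by positivity
  field_simp
  ring

theorem qv_neg (p : QD) : qv (QD.neg p) = - qv p := by
  unfold qv QD.neg
  simp only
  rw [← neg_div]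
  ring

theorem qv_mul (p q : QD) : qv (QD.mul p q) = qv p * qv q := by
  unfold qv QD.mul
  simp only [den_cast]
  push_cast
  have h1 : ((p.2.2 : ℝ) + 1) ≠ 0 := by positivity
  have h2 : ((q.2.2 : ℝ) + 1) ≠ 0 := by positivity
  field_simp
  ring

theorem qv_inv (p : QD) : qv (QD.inv p) = (qv p)⁻¹ := by
  obtain ⟨a, b, c⟩ := p
  unfold qv QD.inv
  simp only
  rcases lt_trichotomy a b with h | h | h
  · have h' : ¬ b < a := by omega
    simp only [h, h', decide_false, decide_true, cond_false, cond_true]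
    have e : ((b - a - 1 : ℕ) : ℝ) + 1 = (b : ℝ) - a := by
      have : b - a - 1 + 1 = b - a := by omega
      have h2 : ((b - a - 1 + 1 : ℕ) : ℝ) = ((b - a : ℕ) : ℝ) := by rw [this]
      rw [Nat.cast_sub h.le] at h2
      push_cast at h2
      linarith
    rw [e, inv_div]
    push_cast
    have hab : (a : ℝ) - b ≠ 0 := by
      have : (a : ℝ) < b := by exact_mod_cast h
      linarith
    have hba : (b : ℝ) - a ≠ 0 := by
      have : (a : ℝ) < b := by exact_mod_cast h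
      linarith
    field_simp
    ring
  · subst h
    simp
  · have h' : ¬ a < b := by omega
    simp only [h, decide_true, cond_true]
    have e : ((a - b - 1 : ℕ) : ℝ) + 1 = (a : ℝ) - b := by
      have : a - b - 1 + 1 = a - b := by omega
      have h2 : ((a - b - 1 + 1 : ℕ) : ℝ) = ((a - b : ℕ) : ℝ) := by rw [this]
      rw [Nat.cast_sub h.le] at h2
      push_cast at h2
      linarith
    rw [e, inv_div]
    push_cast
    ring

theorem qv_le (p q : QD) : QD.le p q = true ↔ qv p ≤ qv q := by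
  unfold qv QD.le
  have h1 : (0 : ℝ) < (p.2.2 : ℝ) + 1 := by positivity
  have h2 : (0 : ℝ) < (q.2.2 : ℝ) + 1 := by positivity
  rw [decide_eq_true_iff, div_le_div_iff₀ h1 h2]
  constructor
  · intro h
    have : ((p.1 * (q.2.2 + 1) + q.2.1 * (p.2.2 + 1) : ℕ) : ℝ)
        ≤ ((q.1 * (p.2.2 + 1) + p.2.1 * (q.2.2 + 1) : ℕ) : ℝ) := by exact_mod_cast h
    push_cast at this
    linarith
  · intro h
    have : ((p.1 * (q.2.2 + 1) + q.2.1 * (p.2.2 + 1) : ℕ) : ℝ)
        ≤ ((q.1 * (p.2.2 + 1) + p.2.1 * (q.2.2 + 1) : ℕ) : ℝ) := by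
      push_cast
      linarith
    exact_mod_cast this

theorem qv_fract (p : QD) : qv (QD.fract p) = Int.fract (qv p) := by
  obtain ⟨a, b, c⟩ := p
  unfold qv QD.fract
  simp only
  have h1 : ((c : ℝ) + 1) ≠ 0 := by positivity
  have e : ((a : ℝ) - b) / ((c : ℝ) + 1) + (b : ℕ) = ((a + b * c : ℕ) : ℝ) / ((c + 1 : ℕ) : ℝ) := by
    push_cast
    field_simp
    ring
  rw [← Int.fract_add_natCast (((a : ℝ) - b) / ((c : ℝ) + 1)) b, e,
    Int.fract_div_natCast_eq_div_natCast_mod]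
  push_cast
  ring

theorem qv_pow (p : QD) (n : ℕ) : qv (QD.pow p n) = qv p ^ n := by
  induction n with
  | zero => simp [QD.pow, qv]
  | succ n ih =>
    have : QD.pow p (n + 1) = QD.mul (QD.pow p n) p := rfl
    rw [this, qv_mul, ih, pow_succ]

theorem qv_nat (n : ℕ) : qv (n, 0, 0) = n := by simp [qv]

section
variable {α : Type*} [Primcodable α]

@[fun_prop] theorem pr_qd_add {f g : α → QD} (hf : Primrec f) (hg : Primrec g) :
    Primrec (fun a => QD.add (f a) (g a)) := by unfold QD.add; fun_prop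
@[fun_prop] theorem pr_qd_neg {f : α → QD} (hf : Primrec f) :
    Primrec (fun a => QD.neg (f a)) := by unfold QD.neg; fun_prop
@[fun_prop] theorem pr_qd_mul {f g : α → QD} (hf : Primrec f) (hg : Primrec g) :
    Primrec (fun a => QD.mul (f a) (g a)) := by unfold QD.mul; fun_prop
@[fun_prop] theorem pr_qd_inv {f : α → QD} (hf : Primrec f) :
    Primrec (fun a => QD.inv (f a)) := by unfold QD.inv; fun_prop
@[fun_prop] theorem pr_qd_le {f g : α → QD} (hf : Primrec f) (hg : Primrec g) :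
    Primrec (fun a => QD.le (f a) (g a)) := by unfold QD.le; fun_prop
@[fun_prop] theorem pr_qd_fract {f : α → QD} (hf : Primrec f) :
    Primrec (fun a => QD.fract (f a)) := by unfold QD.fract; fun_prop
@[fun_prop] theorem pr_qd_pow {f : α → QD} {e : α → ℕ} (hf : Primrec f) (he : Primrec e) :
    Primrec (fun a => QD.pow (f a) (e a)) := by unfold QD.pow; fun_prop

end

variable {α β : Type*} [Primcodable α] [Primcodable β]

theorem QF.of_eq {F G : α → ℝ} (hF : QF F) (h : ∀ a, F a = G a) : QF G := by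
  obtain ⟨g, hg, hg'⟩ := hF
  exact ⟨g, hg, fun a => by rw [← h, hg']⟩

theorem QF.of_qd {g : α → QD} (hg : Primrec g) : QF (fun a => qv (g a)) := ⟨g, hg, fun _ => rfl⟩

theorem QF.comp {F : α → ℝ} (hF : QF F) {f : β → α} (hf : Primrec f) : QF (fun b => F (f b)) := by
  obtain ⟨g, hg, hg'⟩ := hF
  exact ⟨fun b => g (f b), by fun_prop, fun b => hg' _⟩

theorem QF.natCast {f : α → ℕ} (hf : Primrec f) : QF (fun a => (f a : ℝ)) :=
  ⟨fun a => (f a, 0, 0), by fun_prop, fun a => (qv_nat _).symm⟩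

theorem QF.const_rat (q : ℚ) : QF (fun _ : α => (q : ℝ)) := by
  refine ⟨fun _ => (q.num.toNat, (-q.num).toNat, q.den - 1), by fun_prop, fun _ => ?_⟩
  unfold qv
  simp only
  have h1 : ((q.den - 1 : ℕ) : ℝ) + 1 = q.den := by
    rw [Nat.cast_sub q.pos]
    push_cast
    ring
  have h2 : ((q.num.toNat : ℤ) : ℝ) - (((-q.num).toNat : ℤ) : ℝ) = (q.num : ℝ) := by
    have := Int.toNat_sub_toNat_neg q.num
    exact_mod_cast this
  rw [h1, Rat.cast_def]
  congr 1
  rw [← h2]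
  push_cast
  ring

theorem QF.add {F G : α → ℝ} (hF : QF F) (hG : QF G) : QF (fun a => F a + G a) := by
  obtain ⟨f, hf, hf'⟩ := hF
  obtain ⟨g, hg, hg'⟩ := hG
  exact ⟨fun a => QD.add (f a) (g a), by fun_prop, fun a => by simp only [qv_add, hf', hg']⟩

theorem QF.neg {F : α → ℝ} (hF : QF F) : QF (fun a => - F a) := by
  obtain ⟨f, hf, hf'⟩ := hF
  exact ⟨fun a => QD.neg (f a), by fun_prop, fun a => by simp only [qv_neg, hf']⟩

theorem QF.sub {F G : α → ℝ} (hF : QF F) (hG : QF G) : QF (fun a => F a - G a) :=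
  (hF.add hG.neg).of_eq fun a => by ring

theorem QF.mul {F G : α → ℝ} (hF : QF F) (hG : QF G) : QF (fun a => F a * G a) := by
  obtain ⟨f, hf, hf'⟩ := hF
  obtain ⟨g, hg, hg'⟩ := hG
  exact ⟨fun a => QD.mul (f a) (g a), by fun_prop, fun a => by simp only [qv_mul, hf', hg']⟩

theorem QF.inv {F : α → ℝ} (hF : QF F) : QF (fun a => (F a)⁻¹) := by
  obtain ⟨f, hf, hf'⟩ := hF
  exact ⟨fun a => QD.inv (f a), by fun_prop, fun a => by simp only [qv_inv, hf']⟩

theorem QF.div {F G : α → ℝ} (hF : QF F) (hG : QF G) : QF (fun a => F a / G a) :=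
  (hF.mul hG.inv).of_eq fun a => by rw [div_eq_mul_inv]

theorem QF.pow {F : α → ℝ} (hF : QF F) {e : α → ℕ} (he : Primrec e) :
    QF (fun a => F a ^ e a) := by
  obtain ⟨f, hf, hf'⟩ := hF
  exact ⟨fun a => QD.pow (f a) (e a), by fun_prop, fun a => by simp only [qv_pow, hf']⟩

theorem QF.fract {F : α → ℝ} (hF : QF F) : QF (fun a => Int.fract (F a)) := by
  obtain ⟨f, hf, hf'⟩ := hF
  exact ⟨fun a => QD.fract (f a), by fun_prop, fun a => by simp only [qv_fract, hf']⟩

theorem QF.ite {c : α → Bool} (hc : Primrec c) {F G : α → ℝ} (hF : QF F) (hG : QF G) :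
    QF (fun a => if c a = true then F a else G a) := by
  obtain ⟨f, hf, hf'⟩ := hF
  obtain ⟨g, hg, hg'⟩ := hG
  refine ⟨fun a => if c a = true then f a else g a, by fun_prop, fun a => ?_⟩
  simp only
  split_ifs
  · exact hf' a
  · exact hg' a

theorem QF.le_dec {F G : α → ℝ} (hF : QF F) (hG : QF G) :
    ∃ c : α → Bool, Primrec c ∧ ∀ a, c a = true ↔ F a ≤ G a := by
  obtain ⟨f, hf, hf'⟩ := hF
  obtain ⟨g, hg, hg'⟩ := hG
  exact ⟨fun a => QD.le (f a) (g a), by fun_prop, fun a => by rw [qv_le, hf', hg']⟩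

theorem QF.lt_dec {F G : α → ℝ} (hF : QF F) (hG : QF G) :
    ∃ c : α → Bool, Primrec c ∧ ∀ a, c a = true ↔ F a < G a := by
  obtain ⟨c, hc, hc'⟩ := hG.le_dec hF
  refine ⟨fun a => !(c a), by fun_prop, fun a => ?_⟩
  rw [← not_le, ← hc']
  simp

theorem QF.abs {F : α → ℝ} (hF : QF F) : QF (fun a => |F a|) := by
  obtain ⟨c, hc, hc'⟩ := (QF.natCast (α := α) (f := fun _ => 0) (by fun_prop)).le_dec hF
  refine (QF.ite hc hF hF.neg).of_eq fun a => ?_
  split_ifs with h
  · rw [abs_of_nonneg]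
    simpa using (hc' a).1 h
  · rw [abs_of_nonpos]
    have := (hc' a).not.1 h
    push Not at this
    simpa using this.le

/-- a primitive recursive natural upper bound of the absolute value -/
theorem QF.bound {F : α → ℝ} (hF : QF F) : ∃ B : α → ℕ, Primrec B ∧ ∀ a, |F a| ≤ (B a : ℝ) := by
  obtain ⟨f, hf, hf'⟩ := hF
  refine ⟨fun a => (f a).1 + (f a).2.1, by fun_prop, fun a => ?_⟩
  rw [hf']
  unfold qv
  have h1 : (1 : ℝ) ≤ ((f a).2.2 : ℝ) + 1 := by
    linarith [(Nat.cast_nonneg (f a).2.2 : (0 : ℝ) ≤ ((f a).2.2 : ℝ))]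
  rw [abs_div, abs_of_pos (by linarith : (0 : ℝ) < ((f a).2.2 : ℝ) + 1)]
  have h2 : |((f a).1 : ℝ) - ((f a).2.1 : ℝ)| ≤ ((f a).1 : ℝ) + ((f a).2.1 : ℝ) := by
    rw [abs_le]
    constructor <;>
    linarith [(Nat.cast_nonneg (f a).1 : (0 : ℝ) ≤ ((f a).1 : ℝ)),
      (Nat.cast_nonneg (f a).2.1 : (0 : ℝ) ≤ ((f a).2.1 : ℝ))]
  push_cast
  exact (div_le_self (abs_nonneg _) h1).trans h2

theorem QF.list_sum {F : α × β → ℝ} (hF : QF F) {l : α → List β} (hl : Primrec l) :
    QF (fun a => ((l a).map fun b => F (a, b)).sum) := by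
  obtain ⟨f, hf, hf'⟩ := hF
  refine ⟨fun a => (l a).foldr (fun b r => QD.add (f (a, b)) r) (0, 0, 0), by fun_prop, fun a => ?_⟩
  simp only
  generalize l a = t
  induction t with
  | nil => simp [qv]
  | cons b t ih => rw [List.map_cons, List.sum_cons, List.foldr_cons, qv_add, ih, hf']

/-- folding a rational-valued step function over a list (used for codes of stacks) -/
theorem QF.list_foldr {S : α × β × QD → ℝ} (hS : QF S) {l : α → List β} (hl : Primrec l)
    {z : α → ℝ} (hz : QF z) (R : α → β → ℝ → ℝ) (hR : ∀ a b r, R a b (qv r) = S (a, b, r)) :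
    QF (fun a => (l a).foldr (R a) (z a)) := by
  obtain ⟨s, hs, hs'⟩ := hS
  obtain ⟨g, hg, hg'⟩ := hz
  refine ⟨fun a => (l a).foldr (fun b r => s (a, b, r)) (g a), by fun_prop, fun a => ?_⟩
  simp only
  generalize l a = t
  induction t with
  | nil => simp [hg']
  | cons b t ih => simp only [List.foldr_cons, ih, hR, hs']

end Vale.Agent.Lib.P113
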