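import Vale.Agent.Lib.P113.Eff.QF

/-!
# P113 effectivity, module E9a: enumeration of the raw symbols, the base `k`
-/

namespace Vale.Agent.Lib.P113

open Machine

/-- the list `l` enumerates the finite type `α` through the map `e` -/
def Enum {α β : Type*} [Fintype α] (l : List β) (e : α → β) : Prop :=
  (∀ f : β → ℝ, ∑ a, f (e a) = (l.map f).sum) ∧ ∀ u, u ∈ l ↔ ∃ a, e a = u

def lprod {α β : Type*} (l : List α) (l' : List β) : List (α × β) :=
  l.flatMap fun a => l'.map fun b => (a, b)

def lsum {α β : Type*} (l : List α) (l' : List β) : List (α ⊕ β) :=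
  l.map Sum.inl ++ l'.map Sum.inr

theorem sum_map_flatMap {α β : Type*} (l : List α) (g : α → List β) (f : β → ℝ) :
    ((l.flatMap g).map f).sum = (l.map fun a => ((g a).map f).sum).sum := by
  induction l with
  | nil => simp
  | cons a l ih => simp [List.flatMap_cons, ih]

theorem Enum.fin (n : ℕ) : Enum (List.range n) (fun i : Fin n => (i : ℕ)) := by
  refine ⟨fun f => ?_, fun u => ?_⟩
  · rw [Fin.sum_univ_eq_sum_range]
    induction n with
    | zero => simp
    | succ n ih => rw [Finset.sum_range_succ, List.range_succ, List.map_append, List.sum_append, ih]; simp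
  · rw [List.mem_range]
    constructor
    · intro h; exact ⟨⟨u, h⟩, rfl⟩
    · rintro ⟨a, rfl⟩; exact a.2

theorem Enum.bool : Enum [false, true] (id : Bool → Bool) := by
  refine ⟨fun f => ?_, fun u => ?_⟩
  · simp [add_comm]
  · cases u <;> simp

theorem Enum.sum {α β α' β' : Type*} [Fintype α] [Fintype α'] {l : List β} {l' : List β'}
    {e : α → β} {e' : α' → β'} (h : Enum l e) (h' : Enum l' e') :
    Enum (lsum l l') (Sum.map e e') := by
  refine ⟨fun f => ?_, fun u => ?_⟩
  · rw [Fintype.sum_sum_type, lsum, List.map_append, List.sum_append, List.map_map, List.map_map]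
    have h1 := h.1 (fun b => f (Sum.inl b))
    have h2 := h'.1 (fun b => f (Sum.inr b))
    simp only [Sum.map_inl, Sum.map_inr]
    rw [h1, h2]
    rfl
  · rcases u with u | u
    · simp [lsum, h.2]
    · simp [lsum, h'.2]

theorem Enum.prod {α β α' β' : Type*} [Fintype α] [Fintype α'] {l : List β} {l' : List β'}
    {e : α → β} {e' : α' → β'} (h : Enum l e) (h' : Enum l' e') :
    Enum (lprod l l') (Prod.map e e') := by
  refine ⟨fun f => ?_, fun u => ?_⟩
  · rw [Fintype.sum_prod_type, lprod, sum_map_flatMap]
    rw [← h.1 (fun a => ((l'.map fun b => (a, b)).map f).sum)]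
    apply Finset.sum_congr rfl
    intro a _
    rw [List.map_map]
    exact h'.1 (fun b => f (e a, b))
  · obtain ⟨u, v⟩ := u
    simp only [lprod, List.mem_flatMap, List.mem_map, Prod.mk.injEq, Prod.exists, Prod.map_apply]
    constructor
    · rintro ⟨a, ha, b, hb, rfl, rfl⟩
      obtain ⟨a', rfl⟩ := (h.2 a).1 ha
      obtain ⟨b', rfl⟩ := (h'.2 b).1 hb
      exact ⟨a', b', rfl, rfl⟩
    · rintro ⟨a', b', rfl, rfl⟩
      exact ⟨e a', (h.2 _).2 ⟨a', rfl⟩, e' b', (h'.2 _).2 ⟨b', rfl⟩, rfl, rfl⟩

section
variable {α β γ : Type*} [Primcodable α] [Primcodable β] [Primcodable γ]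

@[fun_prop] theorem pr_lprod {l : α → List β} {l' : α → List γ} (hl : Primrec l) (hl' : Primrec l') :
    Primrec (fun a => lprod (l a) (l' a)) := by unfold lprod; fun_prop

@[fun_prop] theorem pr_lsum {l : α → List β} {l' : α → List γ} (hl : Primrec l) (hl' : Primrec l') :
    Primrec (fun a => lsum (l a) (l' a)) := by unfold lsum; fun_prop

end

/-- raw states with direction -/
def rSt (D : Desc) : List (ℕ × Bool) := lprod (List.range (D.1 + 1)) [false, true]

/-- raw tape symbols -/
def rS (D : Desc) : List ℕ := List.range (D.2.1 + 1)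

/-- all raw symbols of the machine with description `D` -/
def syms (D : Desc) : List USym := lsum (lsum (rS D) (lprod (rSt D) (rS D))) (rSt D)

def syms3 (D : Desc) : List USym3 := lprod (syms D) (lprod (syms D) (syms D))

@[fun_prop] theorem syms_primrec : Primrec syms := by unfold syms rSt rS; fun_prop

@[fun_prop] theorem syms3_primrec : Primrec syms3 := by unfold syms3; fun_prop

theorem enum_syms (M : Machine) : Enum (syms M.descr) (erase (M := M)) := by
  have hQ : Enum (List.range (M.nQ + 1)) (fun q : M.Q => (q : ℕ)) := Enum.fin _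
  have hS : Enum (List.range (M.nS + 1)) (fun q : M.S => (q : ℕ)) := Enum.fin _
  have hSt := hQ.prod Enum.bool
  exact (hS.sum (hSt.prod hS)).sum hSt

theorem enum_syms3 (M : Machine) : Enum (syms3 M.descr) (erase3 (M := M)) :=
  (enum_syms M).prod ((enum_syms M).prod (enum_syms M))

theorem val_erase {M : Machine} (a : M.Sym) : val a = Encodable.encode (erase a) := by
  obtain ((s | ⟨⟨q, d⟩, s⟩) | ⟨q, d⟩) := a <;> rfl

/-- the number `K` from the description -/
def rK (D : Desc) : ℕ := ((syms D).map Encodable.encode).foldr max 0 + 1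

@[fun_prop] theorem rK_primrec : Primrec rK := by unfold rK; fun_prop

theorem le_foldr_max (l : List ℕ) (n : ℕ) (h : n ∈ l) : n ≤ l.foldr max 0 := by
  induction l with
  | nil => simp at h
  | cons a l ih =>
    rcases List.mem_cons.1 h with rfl | h
    · exact le_max_left _ _
    · exact (ih h).trans (le_max_right _ _)

theorem foldr_max_le (l : List ℕ) (B : ℕ) (h : ∀ n ∈ l, n ≤ B) : l.foldr max 0 ≤ B := by
  induction l with
  | nil => simp
  | cons a l ih =>
    exact max_le (h a (by simp)) (ih fun n hn => h n (by simp [hn]))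

theorem K_descr (M : Machine) : M.K = rK M.descr := by
  unfold Machine.K rK
  congr 1
  apply le_antisymm
  · apply Finset.sup_le
    intro a _
    apply le_foldr_max
    rw [List.mem_map]
    exact ⟨erase a, ((enum_syms M).2 _).2 ⟨a, rfl⟩, (val_erase a).symm⟩
  · apply foldr_max_le
    intro n hn
    obtain ⟨u, hu, rfl⟩ := List.mem_map.1 hn
    obtain ⟨a, rfl⟩ := ((enum_syms M).2 u).1 hu
    rw [← val_erase]
    exact Finset.le_sup (f := val (M := M)) (Finset.mem_univ a)

/-- the base from the description -/
noncomputable def rk (D : Desc) : ℝ := 2 * (rK D : ℝ)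

theorem k_descr (M : Machine) : M.k = rk M.descr := by
  unfold Machine.k rk
  rw [K_descr]

theorem rk_QF : QF rk :=
  ((QF.natCast (f := fun _ : Desc => 2) (by fun_prop)).mul (QF.natCast rK_primrec)).of_eq
    fun D => by simp [rk]

end Vale.Agent.Lib.P113
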