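import Vale.Agent.Lib.P113.Eff.Exp

/-!
# P113 effectivity, module E5: all derivatives of the smooth step at rational points.
Final statement `sg_PR` FROZEN (the intermediate ones are suggestions).

On `(0,1)`, with `S = stp y`, `a = 1/y`, `b = 1/(1-y)`: `S' = S (1 - S) (a^2 + b^2)`, `a' = -a^2`,
`b' = b^2`.  So `sg n y = ∑ over a list P n of monomials c S^i a^j b^l`, where `P 0 = [S]` and
`c S^i a^j b^l` is replaced by the six monomials
`(c i, i, j+2, l), (c i, i, j, l+2), (-c i, i+1, j+2, l), (-c i, i+1, j, l+2), (-c j, i, j+1, l),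
(c l, i, j, l+1)`.  Outside `(0,1)`: `sg 0 = stp`, `sg (n+1) y = 0` (closure argument at `0`, `1`,
see `pls_zero_of_nonpos` in `Smooth.lean`).
-/

namespace Vale.Agent.Lib.P113

open Set Filter Topology
open scoped ContDiff

/-- monomials `((c⁺, c⁻), i, j, l)` standing for `(c⁺ - c⁻) S^i a^j b^l` -/
abbrev Mono := (ℕ × ℕ) × ℕ × ℕ × ℕ

noncomputable def Mono.ev (S a b : ℝ) (m : Mono) : ℝ :=
  ((m.1.1 : ℝ) - (m.1.2 : ℝ)) * S ^ m.2.1 * a ^ m.2.2.1 * b ^ m.2.2.2

def Mono.d (m : Mono) : List Mono :=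
  [((m.1.1 * m.2.1, m.1.2 * m.2.1), m.2.1, m.2.2.1 + 2, m.2.2.2),
   ((m.1.1 * m.2.1, m.1.2 * m.2.1), m.2.1, m.2.2.1, m.2.2.2 + 2),
   ((m.1.2 * m.2.1, m.1.1 * m.2.1), m.2.1 + 1, m.2.2.1 + 2, m.2.2.2),
   ((m.1.2 * m.2.1, m.1.1 * m.2.1), m.2.1 + 1, m.2.2.1, m.2.2.2 + 2),
   ((m.1.2 * m.2.2.1, m.1.1 * m.2.2.1), m.2.1, m.2.2.1 + 1, m.2.2.2),
   ((m.1.1 * m.2.2.2, m.1.2 * m.2.2.2), m.2.1, m.2.2.1, m.2.2.2 + 1)]

def sgPoly (n : ℕ) : List Mono :=
  Nat.rec [((1, 0), 1, 0, 0)] (fun _ l => l.flatMap Mono.d) n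

theorem monoD_primrec : Primrec Mono.d := by
  unfold Mono.d
  fun_prop

theorem sgPoly_primrec : Primrec sgPoly := by
  have h := monoD_primrec
  unfold sgPoly
  fun_prop

theorem sg_succ (n : ℕ) : sg (n + 1) = deriv (sg n) := by
  funext y
  show deriv^[n + 1] stp y = deriv (fun s => deriv^[n] stp s) y
  rw [Function.iterate_succ_apply']

theorem stp_inside_eq {y : ℝ} (h0 : 0 < y) (h1 : y < 1) :
    stp y = Real.exp (-y⁻¹) / (Real.exp (-y⁻¹) + Real.exp (-(1 - y)⁻¹)) := by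
  show Real.smoothTransition y = _
  unfold Real.smoothTransition expNegInvGlue
  rw [if_neg (not_le.2 h0), if_neg (by rw [not_le]; linarith)]

theorem stp_hasDerivAt_inside {y : ℝ} (h0 : 0 < y) (h1 : y < 1) :
    HasDerivAt stp (stp y * (1 - stp y) * ((1 / y) ^ 2 + (1 / (1 - y)) ^ 2)) y := by
  have hy : y ≠ 0 := h0.ne'
  have hy1 : 1 - y ≠ 0 := by
    have : 0 < 1 - y := by linarith
    exact this.ne'
  have hf : HasDerivAt (fun s : ℝ => Real.exp (-s⁻¹)) (Real.exp (-y⁻¹) * (1 / y) ^ 2) y := by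
    have h : HasDerivAt (fun s : ℝ => Real.exp (-s⁻¹)) (Real.exp (-y⁻¹) * (- -(y ^ 2)⁻¹)) y :=
      ((hasDerivAt_inv hy).neg).exp
    refine h.congr_deriv ?_
    congr 1
    field_simp
  have hg : HasDerivAt (fun s : ℝ => Real.exp (-(1 - s)⁻¹))
      (-(Real.exp (-(1 - y)⁻¹) * (1 / (1 - y)) ^ 2)) y := by
    have h1y : HasDerivAt (fun s : ℝ => 1 - s) (-1) y := by
      simpa using (hasDerivAt_id y).const_sub 1
    have h : HasDerivAt (fun s : ℝ => Real.exp (-(1 - s)⁻¹))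
        (Real.exp (-(1 - y)⁻¹) * (-(- -1 / (1 - y) ^ 2))) y := ((h1y.inv hy1).neg).exp
    refine h.congr_deriv ?_
    generalize Real.exp (-(1 - y)⁻¹) = B
    field_simp
  have hA : 0 < Real.exp (-y⁻¹) := Real.exp_pos _
  have hB : 0 < Real.exp (-(1 - y)⁻¹) := Real.exp_pos _
  have hpos : Real.exp (-y⁻¹) + Real.exp (-(1 - y)⁻¹) ≠ 0 := by positivity
  have hq : HasDerivAt (fun s => Real.exp (-s⁻¹) / (Real.exp (-s⁻¹) + Real.exp (-(1 - s)⁻¹)))
      ((Real.exp (-y⁻¹) * (1 / y) ^ 2 * (Real.exp (-y⁻¹) + Real.exp (-(1 - y)⁻¹)) -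
        Real.exp (-y⁻¹) * (Real.exp (-y⁻¹) * (1 / y) ^ 2 +
          -(Real.exp (-(1 - y)⁻¹) * (1 / (1 - y)) ^ 2))) /
      (Real.exp (-y⁻¹) + Real.exp (-(1 - y)⁻¹)) ^ 2) y := hf.div (hf.add hg) hpos
  have hev : stp =ᶠ[𝓝 y] fun s => Real.exp (-s⁻¹) / (Real.exp (-s⁻¹) + Real.exp (-(1 - s)⁻¹)) := by
    filter_upwards [Ioo_mem_nhds h0 h1] with s hs
    exact stp_inside_eq hs.1 hs.2
  refine (hq.congr_of_eventuallyEq hev).congr_deriv ?_
  rw [stp_inside_eq h0 h1]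
  generalize Real.exp (-y⁻¹) = A at *
  generalize Real.exp (-(1 - y)⁻¹) = B at *
  field_simp
  ring

theorem pow_pred_mul (i : ℕ) (S : ℝ) : (i : ℝ) * S ^ (i - 1) * S = (i : ℝ) * S ^ i := by
  cases i with
  | zero => simp
  | succ i => simp only [Nat.add_sub_cancel]; ring

theorem mono_hasDerivAt (m : Mono) {y : ℝ} (h0 : 0 < y) (h1 : y < 1) :
    HasDerivAt (fun s => Mono.ev (stp s) (1 / s) (1 / (1 - s)) m)
      (((Mono.d m).map (Mono.ev (stp y) (1 / y) (1 / (1 - y)))).sum) y := by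
  have hy : y ≠ 0 := h0.ne'
  have hy1 : 1 - y ≠ 0 := by
    have : 0 < 1 - y := by linarith
    exact this.ne'
  have hS := stp_hasDerivAt_inside h0 h1
  have ha : HasDerivAt (fun s : ℝ => 1 / s) (-(1 / y) ^ 2) y := by
    have h := hasDerivAt_inv hy
    simp only [one_div]
    refine h.congr_deriv ?_
    rw [inv_pow]
  have hb : HasDerivAt (fun s : ℝ => 1 / (1 - s)) ((1 / (1 - y)) ^ 2) y := by
    have h1y : HasDerivAt (fun s : ℝ => 1 - s) (-1) y := by
      simpa using (hasDerivAt_id y).const_sub 1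
    have h : HasDerivAt (fun s : ℝ => (1 - s)⁻¹) (- -1 / (1 - y) ^ 2) y := h1y.inv hy1
    simp only [one_div]
    refine h.congr_deriv ?_
    rw [inv_pow, neg_neg, one_div]
  obtain ⟨⟨cp, cm⟩, i, j, l⟩ := m
  have h : HasDerivAt
      (fun s => ((cp : ℝ) - (cm : ℝ)) * stp s ^ i * (1 / s) ^ j * (1 / (1 - s)) ^ l)
      ((((cp : ℝ) - (cm : ℝ)) * ((i : ℝ) * stp y ^ (i - 1) *
            (stp y * (1 - stp y) * ((1 / y) ^ 2 + (1 / (1 - y)) ^ 2))) * (1 / y) ^ j +
          ((cp : ℝ) - (cm : ℝ)) * stp y ^ i * ((j : ℝ) * (1 / y) ^ (j - 1) * -(1 / y) ^ 2)) *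
        (1 / (1 - y)) ^ l +
      ((cp : ℝ) - (cm : ℝ)) * stp y ^ i * (1 / y) ^ j *
        ((l : ℝ) * (1 / (1 - y)) ^ (l - 1) * (1 / (1 - y)) ^ 2)) y :=
    (((hS.pow i).const_mul ((cp : ℝ) - (cm : ℝ))).mul (ha.pow j)).mul (hb.pow l)
  unfold Mono.ev
  refine h.congr_deriv ?_
  simp only [Mono.d, List.map_cons, List.map_nil, List.sum_cons, List.sum_nil]
  generalize stp y = S
  generalize 1 / y = a
  generalize 1 / (1 - y) = b
  have e1 := pow_pred_mul i S
  have e2 := pow_pred_mul j a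
  have e3 := pow_pred_mul l b
  push_cast
  have t1 : (i : ℝ) * S ^ (i - 1) * (S * (1 - S) * (a ^ 2 + b ^ 2))
      = (i : ℝ) * S ^ i * ((1 - S) * (a ^ 2 + b ^ 2)) := by rw [← e1]; ring
  have t2 : (j : ℝ) * a ^ (j - 1) * (-a ^ 2) = -((j : ℝ) * a ^ j * a) := by rw [← e2]; ring
  have t3 : (l : ℝ) * b ^ (l - 1) * b ^ 2 = (l : ℝ) * b ^ l * b := by rw [← e3]; ring
  rw [t1, t2, t3]
  ring

theorem sg_inside (n : ℕ) (y : ℝ) (h0 : 0 < y) (h1 : y < 1) :
    sg n y = ((sgPoly n).map (Mono.ev (stp y) (1 / y) (1 / (1 - y)))).sum := by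
  induction n generalizing y with
  | zero => simp [sg, sgPoly, Mono.ev]
  | succ n ih =>
    rw [sg_succ]
    have hev : sg n =ᶠ[𝓝 y]
        fun s => ((sgPoly n).map (Mono.ev (stp s) (1 / s) (1 / (1 - s)))).sum := by
      filter_upwards [Ioo_mem_nhds h0 h1] with s hs
      exact ih s hs.1 hs.2
    rw [hev.deriv_eq]
    have hsucc : sgPoly (n + 1) = (sgPoly n).flatMap Mono.d := rfl
    rw [hsucc]
    generalize sgPoly n = L
    have key : HasDerivAt (fun s => (L.map (Mono.ev (stp s) (1 / s) (1 / (1 - s)))).sum)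
        (((L.flatMap Mono.d).map (Mono.ev (stp y) (1 / y) (1 / (1 - y)))).sum) y := by
      induction L with
      | nil => simpa using hasDerivAt_const y (0 : ℝ)
      | cons m L ihL =>
        simp only [List.map_cons, List.sum_cons, List.flatMap_cons, List.map_append,
          List.sum_append]
        exact (mono_hasDerivAt m h0 h1).add ihL
    exact key.deriv

theorem sg_continuous (n : ℕ) : Continuous (sg n) :=
  (ContDiff.iterate_deriv n stp_contDiff).continuous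

theorem sg_zero_of_neg (n : ℕ) {y : ℝ} (h : y < 0) : sg (n + 1) y = 0 := by
  induction n generalizing y with
  | zero => exact pls_zero_of_neg h
  | succ n ih =>
    rw [sg_succ]
    have hev : sg (n + 1) =ᶠ[𝓝 y] fun _ => 0 := by
      filter_upwards [Iio_mem_nhds h] with s hs
      exact ih hs
    rw [hev.deriv_eq]
    simp

theorem sg_zero_of_gt (n : ℕ) {y : ℝ} (h : 1 < y) : sg (n + 1) y = 0 := by
  induction n generalizing y with
  | zero => exact pls_zero_of_gt h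
  | succ n ih =>
    rw [sg_succ]
    have hev : sg (n + 1) =ᶠ[𝓝 y] fun _ => 0 := by
      filter_upwards [Ioi_mem_nhds h] with s hs
      exact ih hs
    rw [hev.deriv_eq]
    simp

theorem sg_outside (n : ℕ) (y : ℝ) (h : y ≤ 0 ∨ 1 ≤ y) : sg (n + 1) y = 0 := by
  have hcl : IsClosed {s | sg (n + 1) s = 0} := isClosed_eq (sg_continuous _) continuous_const
  rcases h with h | h
  · have : Iic (0:ℝ) ⊆ {s | sg (n + 1) s = 0} := by
      rw [← closure_Iio]
      exact hcl.closure_subset_iff.2 (fun s hs => sg_zero_of_neg n hs)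
    exact this h
  · have : Ici (1:ℝ) ⊆ {s | sg (n + 1) s = 0} := by
      rw [← closure_Ioi]
      exact hcl.closure_subset_iff.2 (fun s hs => sg_zero_of_gt n hs)
    exact this h

theorem sg_PR : PR (fun p : ℕ × QD => sg p.1 (qv p.2)) := by
  have hy : QF (fun p : ℕ × QD => qv p.2) := QF.of_qd (g := fun p : ℕ × QD => p.2) (by fun_prop)
  have h0 : QF (fun _ : ℕ × QD => (0 : ℝ)) := by simpa using QF.const_rat (α := ℕ × QD) 0
  have h1 : QF (fun _ : ℕ × QD => (1 : ℝ)) := by simpa using QF.const_rat (α := ℕ × QD) 1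
  obtain ⟨c0, hc0, hc0'⟩ := QF.le_dec hy h0
  obtain ⟨c1, hc1, hc1'⟩ := QF.le_dec h1 hy
  have hS : PR (fun p : ℕ × QD => stp (qv p.2)) := stp_PR.comp (f := fun p : ℕ × QD => p.2)
    (by fun_prop)
  -- the monomials
  have hy' : QF (fun p : (ℕ × QD) × Mono => qv p.1.2) :=
    QF.of_qd (g := fun p : (ℕ × QD) × Mono => p.1.2) (by fun_prop)
  have h1' : QF (fun _ : (ℕ × QD) × Mono => (1 : ℝ)) := by
    simpa using QF.const_rat (α := (ℕ × QD) × Mono) 1
  have hS' : PR (fun p : (ℕ × QD) × Mono => stp (qv p.1.2)) :=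
    stp_PR.comp (f := fun p : (ℕ × QD) × Mono => p.1.2) (by fun_prop)
  have hc : QF (fun p : (ℕ × QD) × Mono => ((p.2.1.1 : ℝ) - (p.2.1.2 : ℝ))) :=
    (QF.natCast (f := fun p : (ℕ × QD) × Mono => p.2.1.1) (by fun_prop)).sub
      (QF.natCast (f := fun p : (ℕ × QD) × Mono => p.2.1.2) (by fun_prop))
  have hev : PR (fun p : (ℕ × QD) × Mono =>
      Mono.ev (stp (qv p.1.2)) (1 / qv p.1.2) (1 / (1 - qv p.1.2)) p.2) := by
    unfold Mono.ev
    exact ((hc.toPR.mul (hS'.pow (e := fun p : (ℕ × QD) × Mono => p.2.2.1) (by fun_prop))).mul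
      ((h1'.div hy').pow (e := fun p : (ℕ × QD) × Mono => p.2.2.2.1) (by fun_prop)).toPR).mul
      ((h1'.div (h1'.sub hy')).pow (e := fun p : (ℕ × QD) × Mono => p.2.2.2.2) (by fun_prop)).toPR
  have hsum := PR.list_sum hev (l := fun p : ℕ × QD => sgPoly p.1)
    (sgPoly_primrec.comp Primrec.fst)
  have hR := PR.ite (c := fun p : ℕ × QD => c0 p || c1 p) (by fun_prop)
    (PR.ite (c := fun p : ℕ × QD => decide (p.1 = 0)) (by fun_prop) hS h0.toPR) hsum
  refine hR.of_eq fun p => ?_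
  obtain ⟨n, q⟩ := p
  by_cases hout : qv q ≤ 0 ∨ 1 ≤ qv q
  · have : (c0 (n, q) || c1 (n, q)) = true := by
      simp only [Bool.or_eq_true, hc0', hc1']; exact hout
    simp only [this, if_true, decide_eq_true_eq]
    cases n with
    | zero => simp [sg]
    | succ n => simp [sg_outside n _ hout]
  · have : ¬ (c0 (n, q) || c1 (n, q)) = true := by
      simp only [Bool.or_eq_true, hc0', hc1']; exact hout
    simp only [if_neg this]
    rw [not_or, not_le, not_le] at hout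
    exact (sg_inside n _ hout.1 hout.2).symm

end Vale.Agent.Lib.P113
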